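import Vale.Agent.P249.L.Defs

/-! P249: every weighted graph contains a core (Komlos-Szemeredi type extremal argument). -/

namespace Vale.Agent.P249.L

variable {V : Type*} [DecidableEq V]

/-- [A1] -/
theorem EE_union (w : V → V → ℝ) (hsym : ∀ u v, w u v = w v u) (X Y : Finset V)
    (hXY : Disjoint X Y) : EE w (X ∪ Y) = EE w X + EE w Y + 2 * cut w X Y := by
  have hc : cut w Y X = cut w X Y := by
    unfold cut
    rw [Finset.sum_comm]
    exact Finset.sum_congr rfl (fun u _ => Finset.sum_congr rfl (fun v _ => hsym v u))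
  have h1 : EE w (X ∪ Y) = EE w X + cut w X Y + (cut w Y X + EE w Y) := by
    unfold EE cut
    rw [Finset.sum_union hXY]
    simp only [Finset.sum_union hXY, Finset.sum_add_distrib]
  rw [h1, hc]
  ring

/-- [A2] `(a+b)^γ = b^γ (1 + a/b)^γ ≤ b^γ (1 + γ a / b) = b^γ + γ a b^(γ-1) ≤ b^γ + γ a^γ`
(Bernoulli: `Real.rpow_one_add_le_one_add_mul_self`; `b^(γ-1) ≤ a^(γ-1)` as `γ - 1 < 0`, `a ≤ b`). -/
theorem rpow_gap (γ : ℝ) (hγ0 : 0 < γ) (hγ1 : γ < 1) (a b : ℝ) (ha : 0 < a) (hab : a ≤ b) :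
    (1 - γ) * a ^ γ ≤ a ^ γ + b ^ γ - (a + b) ^ γ := by
  have hb : 0 < b := lt_of_lt_of_le ha hab
  have ht0 : 0 < a / b := div_pos ha hb
  have ht1 : a / b ≤ 1 := (div_le_one hb).2 hab
  have hbg : 0 < b ^ γ := Real.rpow_pos_of_pos hb γ
  have h1 : (a + b) ^ γ = b ^ γ * (1 + a / b) ^ γ := by
    rw [← Real.mul_rpow hb.le (by positivity)]
    congr 1
    field_simp
    ring
  have h2 : (1 + a / b) ^ γ ≤ 1 + γ * (a / b) :=
    rpow_one_add_le_one_add_mul_self (by linarith) hγ0.le hγ1.le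
  have h3 : a / b ≤ (a / b) ^ γ := by
    have := Real.rpow_le_rpow_of_exponent_ge ht0 ht1 hγ1.le
    rwa [Real.rpow_one] at this
  have h4 : b ^ γ * (a / b) ^ γ = a ^ γ := by
    rw [← Real.mul_rpow hb.le ht0.le]
    congr 1
    field_simp
  have h5 : b ^ γ * (a / b) ≤ a ^ γ := by
    rw [← h4]
    exact mul_le_mul_of_nonneg_left h3 hbg.le
  have h6 : (a + b) ^ γ ≤ b ^ γ + γ * a ^ γ := by
    rw [h1]
    calc b ^ γ * (1 + a / b) ^ γ ≤ b ^ γ * (1 + γ * (a / b)) :=
          mul_le_mul_of_nonneg_left h2 hbg.le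
      _ = b ^ γ + γ * (b ^ γ * (a / b)) := by ring
      _ ≤ b ^ γ + γ * a ^ γ := by
          have := mul_le_mul_of_nonneg_left h5 hγ0.le
          linarith
  linarith

theorem core_h_bounds (γ : ℝ) (hγ0 : 0 < γ) (hγ1 : γ < 1) (c : ℕ) (hc : 1 ≤ c) :
    (c : ℝ) / 2 ≤ (c : ℝ) - (c : ℝ) ^ γ / 2 ∧ (c : ℝ) - (c : ℝ) ^ γ / 2 ≤ c := by
  have hc1 : (1 : ℝ) ≤ c := by exact_mod_cast hc
  have h1 : (c : ℝ) ^ γ ≤ (c : ℝ) ^ (1 : ℝ) :=
    Real.rpow_le_rpow_of_exponent_le hc1 hγ1.le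
  rw [Real.rpow_one] at h1
  have h2 : 0 ≤ (c : ℝ) ^ γ := Real.rpow_nonneg (by linarith) _
  constructor <;> linarith

/-- [A3] Let `h s = s - s^γ / 2` (so `s/2 ≤ h s ≤ s` for `s ≥ 1`) and let `H` maximise
`Ψ A = EE w A / h |A|` over the nonempty subsets `A` of `W` (`Finset.exists_max_image`); `δ = Ψ H`.
`δ ≥ Ψ W > 0`, `EE w W = Ψ W * h |W| ≤ δ |W|`, `EE w H = δ h |H| > 0`, `EE w X ≤ δ h |X| ≤ δ |X|`.
For `X ⊆ H`, `Y = H \ X`, `|X| ≤ |Y|`: by `EE_union`
`2 cut = δ h|H| - EE X - EE Y ≥ δ (h|H| - h|X| - h|Y|) = (δ/2) (|X|^γ + |Y|^γ - |H|^γ) ≥ (δ/2)(1-γ)|X|^γ`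
(`rpow_gap`). -/
theorem exists_core (w : V → V → ℝ) (hw0 : ∀ u v, 0 ≤ w u v) (hsym : ∀ u v, w u v = w v u)
    (γ : ℝ) (hγ0 : 0 < γ) (hγ1 : γ < 1) (W : Finset V) (hW : 0 < EE w W) :
    ∃ (H : Finset V) (δ : ℝ), H ⊆ W ∧ EE w W ≤ δ * W.card ∧ 0 < EE w H ∧
      IsCore w H δ ((1 - γ) / 4) γ := by
  classical
  set h : ℕ → ℝ := fun c => (c : ℝ) - (c : ℝ) ^ γ / 2 with hh
  have hb : ∀ c : ℕ, 1 ≤ c → (c : ℝ) / 2 ≤ h c ∧ h c ≤ c := fun c hc =>
    core_h_bounds γ hγ0 hγ1 c hc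
  have hpos : ∀ c : ℕ, 1 ≤ c → 0 < h c := by
    intro c hc
    have h1 : (1 : ℝ) ≤ c := by exact_mod_cast hc
    have := (hb c hc).1
    linarith
  have hWne : W.Nonempty := by
    rcases W.eq_empty_or_nonempty with rfl | hne
    · simp [EE, cut] at hW
    · exact hne
  obtain ⟨H, hHmem, hHmax⟩ := Finset.exists_max_image (W.powerset.filter Finset.Nonempty)
    (fun A => EE w A / h A.card) ⟨W, by simp [hWne]⟩
  have hHW : H ⊆ W := by
    have := (Finset.mem_filter.1 hHmem).1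
    exact Finset.mem_powerset.1 this
  have hHne : H.Nonempty := (Finset.mem_filter.1 hHmem).2
  set δ : ℝ := EE w H / h H.card with hδ
  have hcard : ∀ A : Finset V, A.Nonempty → 1 ≤ A.card := fun A hA => Finset.card_pos.2 hA
  have hle : ∀ A : Finset V, A ⊆ W → A.Nonempty → EE w A ≤ δ * h A.card := by
    intro A hA hne
    have := hHmax A (by simp [hA, hne])
    have hp := hpos A.card (hcard A hne)
    rwa [div_le_iff₀ hp] at this
  have hδpos : 0 < δ := by
    have h1 := hle W (Finset.Subset.refl _) hWne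
    have hp := hpos W.card (hcard W hWne)
    by_contra hcon
    have : δ * h W.card ≤ 0 := mul_nonpos_of_nonpos_of_nonneg (not_lt.1 hcon) hp.le
    linarith
  have hEH : EE w H = δ * h H.card := by
    have hp := hpos H.card (hcard H hHne)
    rw [hδ]
    field_simp
  refine ⟨H, δ, hHW, ?_, ?_, ?_⟩
  · have h1 := hle W (Finset.Subset.refl _) hWne
    have h2 := (hb W.card (hcard W hWne)).2
    have := mul_le_mul_of_nonneg_left h2 hδpos.le
    linarith
  · rw [hEH]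
    exact mul_pos hδpos (hpos H.card (hcard H hHne))
  · refine ⟨hw0, hsym, hδpos, ?_, ?_⟩
    · intro X hX
      rcases X.eq_empty_or_nonempty with rfl | hne
      · simp [EE, cut]
      · have h1 := hle X (hX.trans hHW) hne
        have h2 := (hb X.card (hcard X hne)).2
        have := mul_le_mul_of_nonneg_left h2 hδpos.le
        linarith
    · intro X hX hne h2X
      have hXc := hcard X hne
      have hcardY : (H \ X).card + X.card = H.card := Finset.card_sdiff_add_card_eq_card hX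
      have hYX : X.card ≤ (H \ X).card := by omega
      have hYne : (H \ X).Nonempty := Finset.card_pos.1 (by omega)
      have hU : X ∪ (H \ X) = H := Finset.union_sdiff_of_subset hX
      have hE := EE_union w hsym X (H \ X) Finset.disjoint_sdiff
      rw [hU, hEH] at hE
      have h1 := hle X (hX.trans hHW) hne
      have h2 := hle (H \ X) (Finset.sdiff_subset.trans hHW) hYne
      have hXr : (0 : ℝ) < X.card := by exact_mod_cast hXc
      have hXY : (X.card : ℝ) ≤ ((H \ X).card : ℝ) := by exact_mod_cast hYX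
      have hg := rpow_gap γ hγ0 hγ1 (X.card : ℝ) ((H \ X).card : ℝ) hXr hXY
      have hHc : (H.card : ℝ) = (X.card : ℝ) + ((H \ X).card : ℝ) := by
        rw [← hcardY]; push_cast; ring
      have e1 : h H.card = (X.card : ℝ) + ((H \ X).card : ℝ)
          - ((X.card : ℝ) + ((H \ X).card : ℝ)) ^ γ / 2 := by
        simp only [hh]; rw [hHc]
      have e2 : h X.card = (X.card : ℝ) - (X.card : ℝ) ^ γ / 2 := rfl
      have e3 : h (H \ X).card = ((H \ X).card : ℝ) - ((H \ X).card : ℝ) ^ γ / 2 := rfl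
      rw [e1] at hE
      rw [e2] at h1
      rw [e3] at h2
      have hg' := mul_le_mul_of_nonneg_left hg hδpos.le
      nlinarith [hg', hE, h1, h2]

end Vale.Agent.P249.L
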