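import Vale.Agent.P249.L.Defs

/-! P249: counting the vertices that are active at a scale. -/

namespace Vale.Agent.P249.L

/-- [E1] `W` = endpoints of the pairs of `P` (all of length in `[L, 2L)`), `B` = points with radius in `[L/10, 4L]`.
A point `w ∈ W` has `L ≤ 10 ρ w`.  If `ρ w ≤ 4 L` then `w ∈ B`.  If `ρ w > 4 L` (big), its partner `w'` satisfies
`min (ρ w) (ρ w') ≤ d < 2L`, so `ρ w' < 2L` and `w' ∈ B`; two distinct big points cannot have the same partner
(`d w1 w2 < 4 L < min (ρ w1) (ρ w2)` contradicts `hρ1`).  So `|W| ≤ |B| + |B|`. -/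
theorem card_endpoints_le {V : Type*} [Fintype V] [DecidableEq V] (d : V → V → ℝ)
    (hsym : ∀ u v, d u v = d v u) (htri : ∀ u v w, d u w ≤ d u v + d v w)
    (ρ : V → ℝ) (hρ1 : ∀ u v, u ≠ v → min (ρ u) (ρ v) ≤ d u v) (L : ℝ) (hL : 0 < L)
    (P : Finset (V × V))
    (hP : ∀ e ∈ P, e.1 ≠ e.2 ∧ L ≤ d e.1 e.2 ∧ d e.1 e.2 < 2 * L ∧
      d e.1 e.2 ≤ 10 * ρ e.1 ∧ d e.1 e.2 ≤ 10 * ρ e.2) :
    (P.image Prod.fst ∪ P.image Prod.snd).card ≤
      2 * (Finset.univ.filter (fun v => L ≤ 10 * ρ v ∧ ρ v ≤ 4 * L)).card := by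
  classical
  set B := Finset.univ.filter (fun v => L ≤ 10 * ρ v ∧ ρ v ≤ 4 * L) with hB
  set W := P.image Prod.fst ∪ P.image Prod.snd with hW
  have hpart : ∀ w ∈ W, ∃ w', w ≠ w' ∧ L ≤ d w w' ∧ d w w' < 2 * L ∧ d w w' ≤ 10 * ρ w ∧
      d w w' ≤ 10 * ρ w' := by
    intro w hw
    rw [hW, Finset.mem_union, Finset.mem_image, Finset.mem_image] at hw
    rcases hw with ⟨e, he, rfl⟩ | ⟨e, he, rfl⟩
    · obtain ⟨h1, h2, h3, h4, h5⟩ := hP e he
      exact ⟨e.2, h1, h2, h3, h4, h5⟩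
    · obtain ⟨h1, h2, h3, h4, h5⟩ := hP e he
      refine ⟨e.1, h1.symm, ?_, ?_, ?_, ?_⟩ <;> rw [hsym e.2 e.1] <;> assumption
  choose! g hg using hpart
  have hsub : W ⊆ B ∪ (W.filter (fun w => 4 * L < ρ w)) := by
    intro w hw
    by_cases h : 4 * L < ρ w
    · exact Finset.mem_union_right _ (Finset.mem_filter.2 ⟨hw, h⟩)
    · refine Finset.mem_union_left _ (Finset.mem_filter.2 ⟨Finset.mem_univ _, ?_, not_lt.1 h⟩)
      obtain ⟨h1, h2, h3, h4, h5⟩ := hg w hw
      linarith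
  have hbig : (W.filter (fun w => 4 * L < ρ w)).card ≤ B.card := by
    apply Finset.card_le_card_of_injOn g
    · intro w hw
      rw [Finset.mem_coe, Finset.mem_filter] at hw
      obtain ⟨h1, h2, h3, h4, h5⟩ := hg w hw.1
      have := hρ1 w (g w) h1
      rw [Finset.mem_coe, Finset.mem_filter]
      refine ⟨Finset.mem_univ _, by linarith, ?_⟩
      rcases min_le_iff.1 this with h | h
      · linarith [hw.2]
      · linarith
    · intro w1 hw1 w2 hw2 h12
      by_contra hne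
      rw [Finset.mem_coe, Finset.mem_filter] at hw1 hw2
      obtain ⟨h1, h2, h3, h4, h5⟩ := hg w1 hw1.1
      obtain ⟨k1, k2, k3, k4, k5⟩ := hg w2 hw2.1
      have := hρ1 w1 w2 hne
      have ht := htri w1 (g w1) w2
      rw [hsym (g w1) w2, h12] at ht
      rw [h12] at h3
      rcases min_le_iff.1 this with h | h
      · linarith [hw1.2]
      · linarith [hw2.2]
  calc W.card ≤ (B ∪ (W.filter (fun w => 4 * L < ρ w))).card := Finset.card_le_card hsub
    _ ≤ B.card + (W.filter (fun w => 4 * L < ρ w)).card := Finset.card_union_le _ _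
    _ ≤ 2 * B.card := by omega

/-- [E2] if some `z` qualifies then `r > 0`; with `z0 = Int.log 2 r` (`2^z0 ≤ r < 2^(z0+1)`) every qualifying `z`
lies in `Finset.Icc (z0 - 2) (z0 + 4)`: `2^z0 ≤ r ≤ 2^(z+2)` and `2^z ≤ 10 r < 2^(z0+5)`. -/
theorem count_scales (r : ℝ) (Z : Finset ℤ) :
    (Z.filter (fun z => (2 : ℝ) ^ z ≤ 10 * r ∧ r ≤ 4 * (2 : ℝ) ^ z)).card ≤ 7 := by
  by_cases hr : 0 < r
  · have h1 : ((2 : ℕ) : ℝ) ^ (Int.log 2 r) ≤ r := Int.zpow_log_le_self (by norm_num) hr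
    have h2 : r < ((2 : ℕ) : ℝ) ^ (Int.log 2 r + 1) := Int.lt_zpow_succ_log_self (by norm_num) r
    set z0 := Int.log 2 r with hz0
    have hsub : Z.filter (fun z => (2 : ℝ) ^ z ≤ 10 * r ∧ r ≤ 4 * (2 : ℝ) ^ z) ⊆
        Finset.Icc (z0 - 2) (z0 + 4) := by
      intro z hz
      rw [Finset.mem_filter] at hz
      obtain ⟨-, ha, hb⟩ := hz
      rw [Finset.mem_Icc]
      push_cast at h1 h2
      constructor
      · have h3 : (2 : ℝ) ^ z0 ≤ (2 : ℝ) ^ (z + 2) := by
          have : (2 : ℝ) ^ (z + 2) = 4 * (2 : ℝ) ^ z := by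
            rw [zpow_add₀ (by norm_num : (2 : ℝ) ≠ 0)]
            norm_num
            ring
          rw [this]
          linarith
        have := (zpow_le_zpow_iff_right₀ (by norm_num : (1 : ℝ) < 2)).1 h3
        omega
      · have h3 : (2 : ℝ) ^ z < (2 : ℝ) ^ (z0 + 5) := by
          have e1 : (2 : ℝ) ^ (z0 + 5) = 16 * (2 : ℝ) ^ (z0 + 1) := by
            rw [show z0 + 5 = (z0 + 1) + 4 by ring, zpow_add₀ (by norm_num : (2 : ℝ) ≠ 0)]
            norm_num
            ring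
          rw [e1]
          linarith
        have := (zpow_lt_zpow_iff_right₀ (by norm_num : (1 : ℝ) < 2)).1 h3
        omega
    calc _ ≤ (Finset.Icc (z0 - 2) (z0 + 4)).card := Finset.card_le_card hsub
      _ = 7 := by
        rw [Int.card_Icc]
        have : z0 + 4 + 1 - (z0 - 2) = 7 := by ring
        rw [this]
        rfl
  · have : Z.filter (fun z => (2 : ℝ) ^ z ≤ 10 * r ∧ r ≤ 4 * (2 : ℝ) ^ z) = ∅ := by
      apply Finset.filter_eq_empty_iff.2
      intro z _ hz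
      have : (0 : ℝ) < (2 : ℝ) ^ z := by positivity
      linarith [hz.1]
    rw [this]
    simp

end Vale.Agent.P249.L
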