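import Mathlib

/-!
P249, linear total sensitivity.  Basic definitions (weighted graphs on a finset of vertices; all sums
are over ORDERED pairs, so every edge is counted twice).  Paper proof: notes/P249_nlogn.md.
-/

namespace Vale.Agent.P249.L

variable {V : Type*}

/-- total weight between `X` and `Y` (ordered pairs) -/
noncomputable def cut (w : V → V → ℝ) (X Y : Finset V) : ℝ := ∑ u ∈ X, ∑ v ∈ Y, w u v

/-- total weight inside `A` (ordered pairs, i.e. twice the edge weight) -/
noncomputable def EE (w : V → V → ℝ) (A : Finset V) : ℝ := cut w A A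

/-- the `p`-energy of `f` on `H` (ordered pairs) -/
noncomputable def energy (w : V → V → ℝ) (p : ℝ) (H : Finset V) (f : V → ℝ) : ℝ :=
  ∑ u ∈ H, ∑ v ∈ H, w u v * |f u - f v| ^ p

/-- `H` is a core of density `δ`: no subset is denser than `δ`, and `H` satisfies an isoperimetric
inequality with exponent `γ`. -/
structure IsCore [DecidableEq V] (w : V → V → ℝ) (H : Finset V) (δ κ γ : ℝ) : Prop where
  nonneg : ∀ u v, 0 ≤ w u v
  symm : ∀ u v, w u v = w v u
  pos : 0 < δ
  dens : ∀ X ⊆ H, EE w X ≤ δ * X.card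
  iso : ∀ X ⊆ H, X.Nonempty → 2 * X.card ≤ H.card →
    κ * δ * (X.card : ℝ) ^ γ ≤ cut w X (H \ X)

/-- constants of the growth lemma -/
noncomputable def aG (D : ℕ) (κ : ℝ) : ℝ := (κ / (D * 2 ^ (D + 1))) ^ D

noncomputable def cG (p : ℝ) (D : ℕ) (κ : ℝ) : ℝ :=
  κ * (aG D κ / 2) ^ (1 - 1 / (D : ℝ)) / (2 * 8 ^ p)

/-- the isoperimetric dimension used for the exponent `p` -/
noncomputable def dimP (p : ℝ) : ℕ := ⌈2 * p + 1⌉₊

/-- the weighted graph of the steep pairs `(a k, b k)`, `k ∈ K'`, with weights `s k` -/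
noncomputable def wgt {K : Type*} [DecidableEq V] (K' : Finset K) (s : K → ℝ) (a b : K → V)
    (u v : V) : ℝ :=
  ∑ k ∈ K', if (a k = u ∧ b k = v) ∨ (a k = v ∧ b k = u) then s k else 0

end Vale.Agent.P249.L
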