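import Vale.Agent.P249.L.Defs

/-! P249: insertion radii of a farthest-first traversal, projection of a steep pair to a net. -/

namespace Vale.Agent.P249.L

/-- [N1] INSERTION RADII (farthest-first traversal / Gonzalez order).
Order the points `y_1, y_2, ...` greedily: `y_1` arbitrary, `y_(i+1)` a point at maximal distance from
`S_i = {y_1..y_i}`; `ρ y_1 = 1 + max of all distances`, `ρ y_(i+1) = dist (y_(i+1), S_i) =: R_i` (nonincreasing in `i`).
Suggested induction (on the number of points outside `S`): for a nonempty `S` and `ρ` defined on `S` keep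
 (a) `min (ρ u) (ρ v) ≤ d u v` for distinct `u v ∈ S`;
 (b) every `z` is within `ρ u` of `S`, for every `u ∈ S` (covering radius `R(S) ≤ ρ u`);
 (c) for `t > R(S)` admissible, every `z` has `u ∈ S` with `t ≤ ρ u`, `d z u < t`.
Adding the farthest point `y` with `ρ y = R(S)` keeps (a): `min (ρ u) (ρ y) = R(S) = dist(y, S) ≤ d u y`; (b): the new
covering radius is `≤ R(S) ≤` all radii; (c): for `R(S') < t ≤ R(S)` all `u ∈ S'` have `t ≤ ρ u` and `dist(z, S') ≤ R(S') < t`.
At the end `S = univ`, `R = 0`. -/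
theorem exists_radius {V : Type*} [Fintype V] [DecidableEq V] [Nonempty V] (d : V → V → ℝ)
    (hd0 : ∀ u, d u u = 0) (hdn : ∀ u v, 0 ≤ d u v) (hsym : ∀ u v, d u v = d v u) :
    ∃ ρ : V → ℝ, (∀ u v, u ≠ v → min (ρ u) (ρ v) ≤ d u v) ∧
      (∀ z t, 0 < t → (∃ a b, t ≤ d a b) → ∃ u, t ≤ ρ u ∧ d z u < t) := by
  classical
  let Inv : Finset V → (V → ℝ) → Prop := fun S ρ =>
    (∀ u ∈ S, ∀ v ∈ S, u ≠ v → min (ρ u) (ρ v) ≤ d u v) ∧
    (∀ u ∈ S, ∀ z, ∃ u' ∈ S, d z u' ≤ ρ u) ∧
    (∀ z t, (∃ a b, t ≤ d a b) → (∀ z', ∃ u' ∈ S, d z' u' < t) → ∃ u ∈ S, t ≤ ρ u ∧ d z u < t)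
  have step : ∀ n : ℕ, ∀ S : Finset V, S.Nonempty → (Finset.univ \ S).card = n → ∀ ρ, Inv S ρ →
      ∃ ρ', Inv Finset.univ ρ' := by
    intro n
    induction n with
    | zero =>
      intro S hS hc ρ hI
      have h1 : S = Finset.univ := by
        have h2 := Finset.card_eq_zero.mp hc
        rw [Finset.sdiff_eq_empty_iff_subset] at h2
        exact Finset.univ_subset_iff.mp h2
      rw [h1] at hI
      exact ⟨ρ, hI⟩
    | succ n ih =>
      intro S hS hc ρ hI
      obtain ⟨ha, hb, hcc⟩ := hI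
      have hne : (Finset.univ \ S).Nonempty := by
        rw [← Finset.card_pos]; omega
      let dS : V → ℝ := fun z => S.inf' hS (fun u => d z u)
      obtain ⟨y, hy, hymax⟩ := Finset.exists_max_image (Finset.univ \ S) dS hne
      have hyS : y ∉ S := (Finset.mem_sdiff.mp hy).2
      have hdS_le : ∀ z, ∀ u ∈ S, dS z ≤ d z u := fun z u hu => Finset.inf'_le _ hu
      have hdS_ex : ∀ z, ∃ u ∈ S, d z u = dS z := by
        intro z
        obtain ⟨u, hu, h⟩ := Finset.exists_mem_eq_inf' hS (fun u => d z u)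
        exact ⟨u, hu, h.symm⟩
      have hmax : ∀ z, dS z ≤ dS y := by
        intro z
        by_cases hz : z ∈ S
        · have h1 : dS z ≤ 0 := by
            have h2 := hdS_le z z hz
            rwa [hd0] at h2
          obtain ⟨u, hu, h⟩ := hdS_ex y
          have h3 : 0 ≤ dS y := by rw [← h]; exact hdn _ _
          linarith
        · exact hymax z (Finset.mem_sdiff.mpr ⟨Finset.mem_univ _, hz⟩)
      have hupd_y : Function.update ρ y (dS y) y = dS y := Function.update_self _ _ _
      have hupd_S : ∀ u ∈ S, Function.update ρ y (dS y) u = ρ u := by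
        intro u hu
        have : u ≠ y := fun h => hyS (h ▸ hu)
        exact Function.update_of_ne this _ _
      have hRle : ∀ u ∈ S, dS y ≤ ρ u := by
        intro u hu
        obtain ⟨u', hu', h⟩ := hb u hu y
        exact le_trans (hdS_le y u' hu') h
      refine ih (insert y S) (Finset.insert_nonempty _ _) ?_ (Function.update ρ y (dS y)) ⟨?_, ?_, ?_⟩
      · have h1 : Finset.univ \ insert y S = (Finset.univ \ S).erase y := by
          ext x
          simp only [Finset.mem_sdiff, Finset.mem_univ, true_and, Finset.mem_insert, not_or,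
            Finset.mem_erase]
        rw [h1, Finset.card_erase_of_mem hy, hc]; rfl
      · intro u hu v hv huv
        rcases Finset.mem_insert.mp hu with rfl | hu
        · rcases Finset.mem_insert.mp hv with rfl | hv
          · exact absurd rfl huv
          · rw [hupd_y]
            exact le_trans (min_le_left _ _) (hdS_le _ v hv)
        · rcases Finset.mem_insert.mp hv with hvy | hv
          · rw [hvy, hupd_y, hsym]
            exact le_trans (min_le_right _ _) (hdS_le _ u hu)
          · rw [hupd_S u hu, hupd_S v hv]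
            exact ha u hu v hv huv
      · intro u hu z
        rcases Finset.mem_insert.mp hu with rfl | hu
        · obtain ⟨u', hu', h⟩ := hdS_ex z
          refine ⟨u', Finset.mem_insert_of_mem hu', ?_⟩
          rw [hupd_y, h]
          exact hmax z
        · obtain ⟨u', hu', h⟩ := hb u hu z
          refine ⟨u', Finset.mem_insert_of_mem hu', ?_⟩
          rw [hupd_S u hu]
          exact h
      · intro z t hadm hcov
        by_cases ht : dS y < t
        · have hcov' : ∀ z', ∃ u' ∈ S, d z' u' < t := by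
            intro z'
            obtain ⟨u', hu', h⟩ := hdS_ex z'
            exact ⟨u', hu', by rw [h]; exact lt_of_le_of_lt (hmax z') ht⟩
          obtain ⟨u, hu, h1, h2⟩ := hcc z t hadm hcov'
          exact ⟨u, Finset.mem_insert_of_mem hu, by rw [hupd_S u hu]; exact h1, h2⟩
        · have ht := not_lt.mp ht
          obtain ⟨u', hu', h⟩ := hcov z
          refine ⟨u', hu', ?_, h⟩
          rcases Finset.mem_insert.mp hu' with rfl | hu''
          · rw [hupd_y]; exact ht
          · rw [hupd_S u' hu'']; exact le_trans ht (hRle u' hu'')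
  obtain ⟨y0⟩ := ‹Nonempty V›
  have hbig : ∀ a b, d a b ≤ ∑ a, ∑ b, d a b := by
    intro a b
    calc d a b ≤ ∑ b, d a b :=
          Finset.single_le_sum (f := fun b => d a b) (fun i _ => hdn a i) (Finset.mem_univ b)
      _ ≤ ∑ a, ∑ b, d a b :=
          Finset.single_le_sum (f := fun a => ∑ b, d a b)
            (fun i _ => Finset.sum_nonneg (fun j _ => hdn i j)) (Finset.mem_univ a)
  have hbase : Inv {y0} (fun _ => ∑ a, ∑ b, d a b) := by
    refine ⟨?_, ?_, ?_⟩
    · intro u hu v hv huv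
      rw [Finset.mem_singleton] at hu hv
      exact absurd (hu.trans hv.symm) huv
    · intro u _ z
      exact ⟨y0, Finset.mem_singleton_self _, hbig z y0⟩
    · intro z t hadm hcov
      obtain ⟨a, b, hab⟩ := hadm
      obtain ⟨u', hu', h⟩ := hcov z
      exact ⟨u', hu', le_trans hab (hbig a b), h⟩
  obtain ⟨ρ, h1, _, h3⟩ := step _ {y0} (Finset.singleton_nonempty _) rfl _ hbase
  refine ⟨ρ, fun u v huv => h1 u (Finset.mem_univ _) v (Finset.mem_univ _) huv, ?_⟩
  intro z t ht hadm
  obtain ⟨u, _, h4, h5⟩ := h3 z t hadm (fun z' => ⟨z', Finset.mem_univ _, by rw [hd0]; exact ht⟩)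
  exact ⟨u, h4, h5⟩

/-- [D1] PROJECTION OF A STEEP PAIR.  `r = d x y`, `t = r / 8`, `L = σ^(1/p)` so that `|f a - f b| ≤ L d a b` for all
`a b` and `L r ≤ |f x - f y|`.  Take `u`, `v` from `hρ2` for `z = x`, `z = y` (admissible: `t ≤ d x y`).  Then
`(3/4) r < d u v < (5/4) r`, `|f u - f v| ≥ |f x - f y| - |f x - f u| - |f y - f v| ≥ (3/4) L r ≥ (3/5) L d u v`, and
`10 ρ u ≥ 10 t = (5/4) r > d u v`. -/
theorem project {V : Type*} (p : ℝ) (hp : 1 ≤ p) (d : V → V → ℝ) (hdn : ∀ u v, 0 ≤ d u v)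
    (hsym : ∀ u v, d u v = d v u) (htri : ∀ u v w, d u w ≤ d u v + d v w)
    (f : V → ℝ) (σ : ℝ) (hσ : 0 ≤ σ) (hlip : ∀ u v, |f u - f v| ^ p ≤ σ * d u v ^ p)
    (ρ : V → ℝ) (hρ2 : ∀ z t, 0 < t → (∃ a b, t ≤ d a b) → ∃ u, t ≤ ρ u ∧ d z u < t)
    (x y : V) (hxy : 0 < d x y) (hst : σ * d x y ^ p ≤ |f x - f y| ^ p) :
    ∃ u v, 0 < d u v ∧ d u v ≤ 10 * ρ u ∧ d u v ≤ 10 * ρ v ∧
      (3 / 5 : ℝ) ^ p * σ * d u v ^ p ≤ |f u - f v| ^ p := by
  have hp0 : 0 < p := by linarith
  obtain ⟨u, hu1, hu2⟩ := hρ2 x (d x y / 8) (by linarith) ⟨x, y, by linarith⟩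
  obtain ⟨v, hv1, hv2⟩ := hρ2 y (d x y / 8) (by linarith) ⟨x, y, by linarith⟩
  set L : ℝ := σ ^ (1 / p) with hL
  have hL0 : 0 ≤ L := Real.rpow_nonneg hσ _
  have hLp : L ^ p = σ := by
    rw [hL, ← Real.rpow_mul hσ, one_div, inv_mul_cancel₀ hp0.ne', Real.rpow_one]
  have hmul : ∀ c : ℝ, 0 ≤ c → (L * c) ^ p = σ * c ^ p := by
    intro c hc
    rw [Real.mul_rpow hL0 hc, hLp]
  have hlip' : ∀ a b, |f a - f b| ≤ L * d a b := by
    intro a b
    have h := hlip a b
    rw [← hmul _ (hdn a b)] at h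
    exact (Real.rpow_le_rpow_iff (abs_nonneg _) (mul_nonneg hL0 (hdn a b)) hp0).1 h
  have hst' : L * d x y ≤ |f x - f y| := by
    rw [← hmul _ hxy.le] at hst
    exact (Real.rpow_le_rpow_iff (mul_nonneg hL0 hxy.le) (abs_nonneg _) hp0).1 hst
  have t1 : d x y ≤ d x u + (d u v + d y v) := by
    have h1 := htri x u y
    have h2 := htri u v y
    rw [hsym v y] at h2
    linarith
  have t2 : d u v ≤ d x u + (d x y + d y v) := by
    have h1 := htri u x v
    have h2 := htri x y v
    rw [hsym u x] at h1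
    linarith
  have hlow : 3 / 4 * d x y < d u v := by linarith
  have hup : d u v < 5 / 4 * d x y := by linarith
  refine ⟨u, v, by linarith, by linarith, by linarith, ?_⟩
  have a1 : |f x - f y| ≤ |f x - f u| + |f u - f v| + |f y - f v| := by
    have e : f x - f y = (f x - f u) + (f u - f v) + -(f y - f v) := by ring
    calc |f x - f y| = |(f x - f u) + (f u - f v) + -(f y - f v)| := by rw [← e]
      _ ≤ |(f x - f u) + (f u - f v)| + |-(f y - f v)| := abs_add_le _ _
      _ ≤ |f x - f u| + |f u - f v| + |f y - f v| := by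
        rw [abs_neg]
        linarith [abs_add_le (f x - f u) (f u - f v)]
  have a2 := hlip' x u
  have a3 := hlip' y v
  have a4 : L * d x u ≤ L * (d x y / 8) := mul_le_mul_of_nonneg_left hu2.le hL0
  have a5 : L * d y v ≤ L * (d x y / 8) := mul_le_mul_of_nonneg_left hv2.le hL0
  have a6 : L * d u v ≤ L * (5 / 4 * d x y) := mul_le_mul_of_nonneg_left hup.le hL0
  have key : 3 / 5 * (L * d u v) ≤ |f u - f v| := by nlinarith
  have : (3 / 5 : ℝ) ^ p * σ * d u v ^ p = (3 / 5 * (L * d u v)) ^ p := by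
    rw [Real.mul_rpow (by norm_num) (mul_nonneg hL0 (hdn u v)), hmul _ (hdn u v)]
    ring
  rw [this]
  exact Real.rpow_le_rpow (by have := mul_nonneg hL0 (hdn u v); linarith) key hp0.le

end Vale.Agent.P249.L
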