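import Vale.Agent.P249.L.Single
import Vale.Agent.P249.L.Nets
import Vale.Agent.P249.L.Count

/-! P249: the total sensitivity of `n` points of `ℓ_p` is `O_p(n)`. -/

namespace Vale.Agent.P249.L

/-- [T1] sum over the scales.  `Z` a finite set of integers, `B z = {v : 2^z ≤ 10 ρ v ∧ ρ v ≤ 4 * 2^z}`.
`∑ z ∈ Z, |B z| = ∑ v, #{z ∈ Z : v ∈ B z} ≤ 7 |V|` (`Finset.card_filter`, `Finset.sum_comm`, `count_scales`). -/
theorem sum_scales_le {V : Type*} [Fintype V] (ρ : V → ℝ) (Z : Finset ℤ) :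
    ∑ z ∈ Z, (Finset.univ.filter (fun v => (2 : ℝ) ^ z ≤ 10 * ρ v ∧ ρ v ≤ 4 * (2 : ℝ) ^ z)).card ≤
      7 * Fintype.card V := by
  classical
  calc ∑ z ∈ Z, (Finset.univ.filter
          (fun v => (2 : ℝ) ^ z ≤ 10 * ρ v ∧ ρ v ≤ 4 * (2 : ℝ) ^ z)).card
      = ∑ z ∈ Z, ∑ v : V, if ((2 : ℝ) ^ z ≤ 10 * ρ v ∧ ρ v ≤ 4 * (2 : ℝ) ^ z) then 1 else 0 := by
        refine Finset.sum_congr rfl (fun z _ => ?_)
        rw [Finset.card_filter]
    _ = ∑ v : V, ∑ z ∈ Z, if ((2 : ℝ) ^ z ≤ 10 * ρ v ∧ ρ v ≤ 4 * (2 : ℝ) ^ z) then 1 else 0 :=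
        Finset.sum_comm
    _ = ∑ v : V, (Z.filter (fun z => (2 : ℝ) ^ z ≤ 10 * ρ v ∧ ρ v ≤ 4 * (2 : ℝ) ^ z)).card := by
        refine Finset.sum_congr rfl (fun v _ => ?_)
        rw [Finset.card_filter]
    _ ≤ ∑ _v : V, 7 := Finset.sum_le_sum (fun v _ => count_scales (ρ v) Z)
    _ = 7 * Fintype.card V := by
        rw [Finset.sum_const, Finset.card_univ, smul_eq_mul, mul_comm]

/-- [T2] one scale class.  `Kz` a set of coordinates whose pairs `(a k, b k)` have length in `[2^z, 2^(z+1))`.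
`single_scale` with `ℓ = 2^z`, `W = Kz.image a ∪ Kz.image b`, then `card_endpoints_le` with
`P = Kz.image (fun k => (a k, b k))`, `L = 2^z` (note `P.image Prod.fst = Kz.image a`). -/
theorem scale_class_le {V K : Type*} [Fintype V] [DecidableEq V] [Fintype K] [DecidableEq K]
    (p : ℝ) (hp : 1 ≤ p) (d : V → V → ℝ) (hd0 : ∀ u, d u u = 0)
    (hsym : ∀ u v, d u v = d v u) (htri : ∀ u v w, d u w ≤ d u v + d v w)
    (φ : K → V → ℝ) (hload : ∀ u v, ∑ k, |φ k u - φ k v| ^ p = d u v ^ p)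
    (s : K → ℝ) (hs0 : ∀ k, 0 ≤ s k)
    (ρ : V → ℝ) (hρ1 : ∀ u v, u ≠ v → min (ρ u) (ρ v) ≤ d u v)
    (a b : K → V) (z : ℤ) (Kz : Finset K)
    (hlen : ∀ k ∈ Kz, (2 : ℝ) ^ z ≤ d (a k) (b k) ∧ d (a k) (b k) < 2 * (2 : ℝ) ^ z)
    (hrad : ∀ k ∈ Kz, d (a k) (b k) ≤ 10 * ρ (a k) ∧ d (a k) (b k) ≤ 10 * ρ (b k))
    (hsteep : ∀ k ∈ Kz,
      (3 / 5 : ℝ) ^ p * s k * d (a k) (b k) ^ p ≤ |φ k (a k) - φ k (b k)| ^ p) :
    ∑ k ∈ Kz, s k ≤ C1 p * (2 *
      ((Finset.univ.filter (fun v => (2 : ℝ) ^ z ≤ 10 * ρ v ∧ ρ v ≤ 4 * (2 : ℝ) ^ z)).card : ℝ)) := by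
  have hL : (0 : ℝ) < (2 : ℝ) ^ z := zpow_pos (by norm_num) z
  have hab : ∀ k ∈ Kz, a k ≠ b k := by
    intro k hk h
    have h1 := (hlen k hk).1
    rw [h, hd0] at h1
    linarith
  have h1 := single_scale p hp d φ (fun u v => (hload u v).le) s hs0 Kz a b
    (Kz.image a ∪ Kz.image b) ((2 : ℝ) ^ z) hL
    (fun k hk => Finset.mem_union_left _ (Finset.mem_image_of_mem a hk))
    (fun k hk => Finset.mem_union_right _ (Finset.mem_image_of_mem b hk))
    hab (fun k hk => ⟨(hlen k hk).1, (hlen k hk).2.le⟩) hsteep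
  have h2 := card_endpoints_le d hsym htri ρ hρ1 ((2 : ℝ) ^ z) hL
    (Kz.image (fun k => (a k, b k)))
    (by
      intro e he
      obtain ⟨k, hk, rfl⟩ := Finset.mem_image.mp he
      exact ⟨hab k hk, (hlen k hk).1, (hlen k hk).2, (hrad k hk).1, (hrad k hk).2⟩)
  rw [Finset.image_image, Finset.image_image] at h2
  have e1 : (Prod.fst ∘ fun k => (a k, b k)) = a := rfl
  have e2 : (Prod.snd ∘ fun k => (a k, b k)) = b := rfl
  rw [e1, e2] at h2
  refine le_trans h1 (mul_le_mul_of_nonneg_left ?_ (C1_pos p hp).le)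
  exact_mod_cast h2

/-- [T3] ABSTRACT TOTAL SENSITIVITY BOUND.  If `V` is empty, `hs2` forces `s = 0`.  Otherwise take `ρ` from
`exists_radius`; for `k` with `0 < s k` take the steep pair from `hs2` and `(a k, b k)` from `project`
(`f = φ k`, `σ = s k`); `choose` them (arbitrary values when `s k = 0`).  `Kp = univ.filter (0 < s k)`,
`zz k = Int.log 2 (d (a k) (b k))` (`Int.zpow_log_le_self`, `Int.lt_zpow_succ_log_self`; `2^(z+1) = 2 * 2^z`),
`Z = Kp.image zz`.  `∑ k, s k = ∑ k ∈ Kp, s k = ∑ z ∈ Z, ∑ k ∈ Kp.filter (zz k = z), s k`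
(`Finset.sum_fiberwise_of_maps_to`), then `scale_class_le` and `sum_scales_le`. -/
theorem total_abstract {V K : Type*} [Fintype V] [DecidableEq V] [Fintype K] [DecidableEq K]
    (p : ℝ) (hp : 1 ≤ p) (d : V → V → ℝ) (hd0 : ∀ u, d u u = 0) (hdn : ∀ u v, 0 ≤ d u v)
    (hsym : ∀ u v, d u v = d v u) (htri : ∀ u v w, d u w ≤ d u v + d v w)
    (φ : K → V → ℝ) (hload : ∀ u v, ∑ k, |φ k u - φ k v| ^ p = d u v ^ p)
    (s : K → ℝ) (hs0 : ∀ k, 0 ≤ s k)
    (hs1 : ∀ k u v, |φ k u - φ k v| ^ p ≤ s k * d u v ^ p)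
    (hs2 : ∀ k, 0 < s k → ∃ x y, 0 < d x y ∧ s k * d x y ^ p ≤ |φ k x - φ k y| ^ p) :
    ∑ k, s k ≤ 14 * C1 p * Fintype.card V := by
  classical
  have hC1 := C1_pos p hp
  rcases isEmpty_or_nonempty V with hV | hV
  · have hz : ∀ k, s k = 0 := by
      intro k
      by_contra h
      have hpos : 0 < s k := lt_of_le_of_ne (hs0 k) (Ne.symm h)
      obtain ⟨x, _⟩ := hs2 k hpos
      exact hV.elim x
    simp [hz]
  obtain ⟨ρ, hρ1, hρ2⟩ := exists_radius d hd0 hdn hsym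
  have hex : ∀ k, ∃ u v, 0 < s k → (0 < d u v ∧ d u v ≤ 10 * ρ u ∧ d u v ≤ 10 * ρ v ∧
      (3 / 5 : ℝ) ^ p * s k * d u v ^ p ≤ |φ k u - φ k v| ^ p) := by
    intro k
    by_cases hk : 0 < s k
    · obtain ⟨x, y, hxy, hst⟩ := hs2 k hk
      obtain ⟨u, v, h⟩ := project p hp d hdn hsym htri (φ k) (s k) (hs0 k) (hs1 k) ρ hρ2 x y hxy hst
      exact ⟨u, v, fun _ => h⟩
    · obtain ⟨x⟩ := hV
      exact ⟨x, x, fun h => absurd h hk⟩
  choose a b hab using hex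
  set Kp : Finset K := Finset.univ.filter (fun k => 0 < s k) with hKp
  set zz : K → ℤ := fun k => Int.log 2 (d (a k) (b k)) with hzz
  set Z : Finset ℤ := Kp.image zz with hZ
  have h1 : ∑ k, s k = ∑ k ∈ Kp, s k := by
    symm
    apply Finset.sum_filter_of_ne
    intro k _ hne
    exact lt_of_le_of_ne (hs0 k) (Ne.symm hne)
  have h2 : ∑ k ∈ Kp, s k = ∑ z ∈ Z, ∑ k ∈ Kp.filter (fun k => zz k = z), s k := by
    symm
    exact Finset.sum_fiberwise_of_maps_to (fun k hk => Finset.mem_image_of_mem zz hk) _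
  have h3 : ∀ z ∈ Z, ∑ k ∈ Kp.filter (fun k => zz k = z), s k ≤ C1 p * (2 *
      ((Finset.univ.filter (fun v => (2 : ℝ) ^ z ≤ 10 * ρ v ∧ ρ v ≤ 4 * (2 : ℝ) ^ z)).card : ℝ)) := by
    intro z _
    have hmem : ∀ k ∈ Kp.filter (fun k => zz k = z), 0 < s k ∧ zz k = z := by
      intro k hk
      rw [Finset.mem_filter, hKp, Finset.mem_filter] at hk
      exact ⟨hk.1.2, hk.2⟩
    apply scale_class_le p hp d hd0 hsym htri φ hload s hs0 ρ hρ1 a b z
    · intro k hk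
      obtain ⟨hk1, hk2⟩ := hmem k hk
      have hpos := (hab k hk1).1
      have e1 := Int.zpow_log_le_self (b := 2) (by norm_num) hpos
      have e2 := Int.lt_zpow_succ_log_self (b := 2) (by norm_num) (d (a k) (b k))
      have hk2' : Int.log 2 (d (a k) (b k)) = z := hk2
      rw [hk2'] at e1 e2
      rw [zpow_add_one₀ (by norm_num)] at e2
      push_cast at e1 e2
      exact ⟨e1, by linarith⟩
    · intro k hk
      obtain ⟨hk1, _⟩ := hmem k hk
      exact ⟨(hab k hk1).2.1, (hab k hk1).2.2.1⟩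
    · intro k hk
      obtain ⟨hk1, _⟩ := hmem k hk
      exact (hab k hk1).2.2.2
  rw [h1, h2]
  calc ∑ z ∈ Z, ∑ k ∈ Kp.filter (fun k => zz k = z), s k
      ≤ ∑ z ∈ Z, C1 p * (2 *
        ((Finset.univ.filter (fun v => (2 : ℝ) ^ z ≤ 10 * ρ v ∧ ρ v ≤ 4 * (2 : ℝ) ^ z)).card : ℝ)) :=
        Finset.sum_le_sum h3
    _ = 2 * C1 p * ((∑ z ∈ Z,
        (Finset.univ.filter (fun v => (2 : ℝ) ^ z ≤ 10 * ρ v ∧ ρ v ≤ 4 * (2 : ℝ) ^ z)).card : ℕ) : ℝ) := by
        push_cast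
        rw [Finset.mul_sum]
        apply Finset.sum_congr rfl
        intro z _
        ring
    _ ≤ 2 * C1 p * ((7 * Fintype.card V : ℕ) : ℝ) := by
        apply mul_le_mul_of_nonneg_left _ (by positivity)
        exact_mod_cast sum_scales_le ρ Z
    _ = 14 * C1 p * Fintype.card V := by push_cast; ring

/-- the `ℓ_p` distance of the points `x u`, `x v` -/
noncomputable def dd {n m : ℕ} (p : ℝ) (x : Fin n → Fin m → ℝ) (u v : Fin n) : ℝ :=
  (∑ k, |x u k - x v k| ^ p) ^ (1 / p)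

/-- [M1] -/
theorem dd_pow {n m : ℕ} (p : ℝ) (hp : 1 ≤ p) (x : Fin n → Fin m → ℝ) (u v : Fin n) :
    dd p x u v ^ p = ∑ k, |x u k - x v k| ^ p := by
  have hp0 : p ≠ 0 := by linarith
  have h0 : 0 ≤ ∑ k, |x u k - x v k| ^ p :=
    Finset.sum_nonneg fun k _ => Real.rpow_nonneg (abs_nonneg _) _
  unfold dd
  rw [← Real.rpow_mul h0, one_div, inv_mul_cancel₀ hp0, Real.rpow_one]

/-- [M1] -/
theorem dd_self {n m : ℕ} (p : ℝ) (hp : 1 ≤ p) (x : Fin n → Fin m → ℝ) (u : Fin n) :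
    dd p x u u = 0 := by
  have hp0 : p ≠ 0 := by linarith
  unfold dd
  simp only [sub_self, abs_zero, Real.zero_rpow hp0, Finset.sum_const_zero]
  exact Real.zero_rpow (by simpa using hp0)

/-- [M1] -/
theorem dd_nonneg {n m : ℕ} (p : ℝ) (x : Fin n → Fin m → ℝ) (u v : Fin n) : 0 ≤ dd p x u v := by
  unfold dd
  exact Real.rpow_nonneg (Finset.sum_nonneg fun k _ => Real.rpow_nonneg (abs_nonneg _) _) _

/-- [M1] -/
theorem dd_symm {n m : ℕ} (p : ℝ) (x : Fin n → Fin m → ℝ) (u v : Fin n) :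
    dd p x u v = dd p x v u := by
  unfold dd
  simp only [abs_sub_comm]

/-- [M2] Minkowski: `Real.Lp_add_le` with `f k = x u k - x v k`, `g k = x v k - x w k`. -/
theorem dd_tri {n m : ℕ} (p : ℝ) (hp : 1 ≤ p) (x : Fin n → Fin m → ℝ) (u v w : Fin n) :
    dd p x u w ≤ dd p x u v + dd p x v w := by
  have h := Real.Lp_add_le Finset.univ (fun k => x u k - x v k) (fun k => x v k - x w k) hp
  have e : ∀ k, x u k - x v k + (x v k - x w k) = x u k - x w k := fun k => by ring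
  simp only [e] at h
  exact h

/-- [M3] the sensitivities: `s k` = maximum over all ordered pairs `e` of `|x e.1 k - x e.2 k|^p / A e`,
`A e = ∑ k', |x e.1 k' - x e.2 k'|^p` (division by zero gives `0`; `Finset.exists_max_image` on `univ`;
if `n = 0` take `s = 0`).  First property: if `A e > 0` by maximality, if `A e = 0` every term of the sum is `0`.
Second: the maximiser `e` has ratio `s k > 0`, hence `A e > 0`. -/
theorem exists_sens {n m : ℕ} (p : ℝ) (hp : 1 ≤ p) (x : Fin n → Fin m → ℝ) :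
    ∃ s : Fin m → ℝ, (∀ k, 0 ≤ s k) ∧
      (∀ k u v, |x u k - x v k| ^ p ≤ s k * ∑ k', |x u k' - x v k'| ^ p) ∧
      (∀ k, 0 < s k → ∃ u v, 0 < ∑ k', |x u k' - x v k'| ^ p ∧
        s k * ∑ k', |x u k' - x v k'| ^ p ≤ |x u k - x v k| ^ p) := by
  classical
  rcases Nat.eq_zero_or_pos n with rfl | hn
  · exact ⟨fun _ => 0, fun _ => le_rfl, fun _ u => u.elim0, fun _ h => absurd h (lt_irrefl _)⟩
  haveI : Nonempty (Fin n × Fin n) := ⟨(⟨0, hn⟩, ⟨0, hn⟩)⟩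
  set A : Fin n × Fin n → ℝ := fun e => ∑ k', |x e.1 k' - x e.2 k'| ^ p with hA
  have hterm : ∀ (e : Fin n × Fin n) (k : Fin m), 0 ≤ |x e.1 k - x e.2 k| ^ p :=
    fun e k => Real.rpow_nonneg (abs_nonneg _) _
  have hA0 : ∀ e, 0 ≤ A e := fun e => Finset.sum_nonneg (fun k _ => hterm e k)
  have hmax : ∀ k : Fin m, ∃ e : Fin n × Fin n, ∀ e' : Fin n × Fin n,
      |x e'.1 k - x e'.2 k| ^ p / A e' ≤ |x e.1 k - x e.2 k| ^ p / A e := by
    intro k
    obtain ⟨e, _, he⟩ := Finset.exists_max_image Finset.univ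
      (fun e : Fin n × Fin n => |x e.1 k - x e.2 k| ^ p / A e) Finset.univ_nonempty
    exact ⟨e, fun e' => he e' (Finset.mem_univ _)⟩
  choose E hE using hmax
  refine ⟨fun k => |x (E k).1 k - x (E k).2 k| ^ p / A (E k),
    fun k => div_nonneg (hterm _ k) (hA0 _), ?_, ?_⟩
  · intro k u v
    have h1 := hE k (u, v)
    have hAe : A (u, v) = ∑ k', |x u k' - x v k'| ^ p := rfl
    rw [← hAe]
    rcases (hA0 (u, v)).lt_or_eq with hpos | hzero
    · have h2 := mul_le_mul_of_nonneg_right h1 hpos.le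
      rwa [div_mul_cancel₀ _ hpos.ne'] at h2
    · rw [← hzero, mul_zero]
      have h3 := (Finset.sum_eq_zero_iff_of_nonneg (fun k' _ => hterm (u, v) k')).mp hzero.symm k
        (Finset.mem_univ _)
      exact h3.le
  · intro k hk
    have hAne : A (E k) ≠ 0 := by
      intro h0
      simp only [h0, div_zero, lt_irrefl] at hk
    have hpos : 0 < A (E k) := lt_of_le_of_ne (hA0 _) (Ne.symm hAne)
    refine ⟨(E k).1, (E k).2, hpos, ?_⟩
    have hAe : A (E k) = ∑ k', |x (E k).1 k' - x (E k).2 k'| ^ p := rfl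
    rw [← hAe, div_mul_cancel₀ _ hAne]

/-- [T4] total sensitivity of `n` points of `ℓ_p^m`: `exists_sens` + `total_abstract` with `V = Fin n`, `K = Fin m`,
`d = dd p x`, `φ k u = x u k` (`dd_pow` rewrites `d u v ^ p`; `0 < d u v` from `0 < d u v ^ p`). -/
theorem total_sensitivity (p : ℝ) (hp : 1 ≤ p) (n m : ℕ) (x : Fin n → Fin m → ℝ) :
    ∃ s : Fin m → ℝ, (∀ k, 0 ≤ s k) ∧
      (∀ k (e : Fin n × Fin n),
        |x e.1 k - x e.2 k| ^ p ≤ s k * ∑ k', |x e.1 k' - x e.2 k'| ^ p) ∧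
      ∑ k, s k ≤ 14 * C1 p * n := by
  obtain ⟨s, hs0, hs1, hs2⟩ := exists_sens p hp x
  refine ⟨s, hs0, fun k e => hs1 k e.1 e.2, ?_⟩
  have hp0 : 0 < p := by linarith
  have h := total_abstract (V := Fin n) (K := Fin m) p hp (dd p x) (dd_self p hp x)
    (dd_nonneg p x) (dd_symm p x) (dd_tri p hp x) (fun k u => x u k)
    (fun u v => (dd_pow p hp x u v).symm) s hs0
    (fun k u v => by rw [dd_pow p hp x u v]; exact hs1 k u v)
    (fun k hk => by
      obtain ⟨u, v, h1, h2⟩ := hs2 k hk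
      refine ⟨u, v, ?_, by rw [dd_pow p hp x u v]; exact h2⟩
      rcases (dd_nonneg p x u v).lt_or_eq with h3 | h3
      · exact h3
      · exfalso
        rw [← dd_pow p hp x u v, ← h3, Real.zero_rpow hp0.ne'] at h1
        exact lt_irrefl _ h1)
  rw [Fintype.card_fin] at h
  exact h

end Vale.Agent.P249.L
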