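import Vale.Agent.P249.Sampling
import Vale.Agent.P249.L.Total

/-! P249: from the linear bound on the total sensitivity to the embedding into dimension `C n log n`. -/

namespace Vale.Agent.P249.L

open Finset

theorem core (p : ℝ) (hp : 1 ≤ p) (ε : ℝ) (hε0 : 0 < ε) (hε1 : ε < 1) (n T : ℕ) (Sb : ℝ)
    (hSb : 0 < Sb) (hT0 : 0 < T)
    (hT : 2 * ((n : ℝ) * n) *
      Real.exp (-(T * ε ^ 2 / (4 * Sb))) < 1)
    (m : ℕ) (x : Fin n → Fin m → ℝ)
    (hsens : ∃ s : Fin m → ℝ, (∀ k, 0 ≤ s k) ∧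
      (∀ k (e : Fin n × Fin n),
        |x e.1 k - x e.2 k| ^ p ≤ s k * ∑ k', |x e.1 k' - x e.2 k'| ^ p) ∧
      ∑ k, s k ≤ Sb) :
    ∃ d : ℕ, d ≤ T ∧ ∃ (κ : Fin d → Fin m) (c : Fin d → ℝ), (∀ t, 0 ≤ c t) ∧ ∀ i j,
      (1 - ε) * ∑ k, |x i k - x j k| ^ p ≤ ∑ t, |c t * x i (κ t) - c t * x j (κ t)| ^ p ∧
      ∑ t, |c t * x i (κ t) - c t * x j (κ t)| ^ p ≤ (1 + ε) * ∑ k, |x i k - x j k| ^ p := by
  classical
  have hp0 : 0 < p := by linarith
  have hpne : p ≠ 0 := hp0.ne'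
  obtain ⟨s, hs0, hsa, hSle⟩ := hsens
  have ha0 : ∀ (k : Fin m) (e : Fin n × Fin n), 0 ≤ |x e.1 k - x e.2 k| ^ p :=
    fun k e => Real.rpow_nonneg (abs_nonneg _) _
  rcases (Finset.sum_nonneg (fun k _ => hs0 k) : 0 ≤ ∑ k, s k).lt_or_eq with hSpos | hSzero
  · have hT' : 2 * (Fintype.card (Fin n × Fin n) : ℝ) *
        Real.exp (-(T * ε ^ 2 / (4 * ∑ k, s k))) < 1 := by
      refine lt_of_le_of_lt ?_ hT
      rw [Fintype.card_prod, Fintype.card_fin]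
      push_cast
      have h1 : (T : ℝ) * ε ^ 2 / (4 * Sb) ≤
          T * ε ^ 2 / (4 * ∑ k, s k) := by
        apply div_le_div_of_nonneg_left (by positivity) (by positivity)
        linarith
      have h2 : Real.exp (-(T * ε ^ 2 / (4 * ∑ k, s k))) ≤
          Real.exp (-(T * ε ^ 2 / (4 * Sb))) :=
        Real.exp_le_exp.mpr (neg_le_neg h1)
      exact mul_le_mul_of_nonneg_left h2 (by positivity)
    obtain ⟨κ, hκpos, hκ⟩ := exists_sample (fun k (e : Fin n × Fin n) => |x e.1 k - x e.2 k| ^ p)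
      ha0 s hs0 hsa hSpos ε hε0 hε1 T hT0 hT'
    have hc : ∀ t, 0 ≤ (∑ k, s k) / (T * s (κ t)) := by
      intro t
      have := hκpos t
      positivity
    refine ⟨T, le_rfl, κ, fun t => ((∑ k, s k) / (T * s (κ t))) ^ (1 / p),
      fun t => Real.rpow_nonneg (hc t) _, ?_⟩
    intro i j
    have hterm : ∀ t, |((∑ k, s k) / (T * s (κ t))) ^ (1 / p) * x i (κ t) -
        ((∑ k, s k) / (T * s (κ t))) ^ (1 / p) * x j (κ t)| ^ p =
        ((∑ k, s k) / (T * s (κ t))) * |x i (κ t) - x j (κ t)| ^ p := by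
      intro t
      rw [← mul_sub, abs_mul, abs_of_nonneg (Real.rpow_nonneg (hc t) _),
        Real.mul_rpow (Real.rpow_nonneg (hc t) _) (abs_nonneg _), ← Real.rpow_mul (hc t),
        one_div_mul_cancel hpne, Real.rpow_one]
    rw [Finset.sum_congr rfl (fun t _ => hterm t)]
    exact hκ (i, j)
  · refine ⟨0, Nat.zero_le _, Fin.elim0, Fin.elim0, fun t => t.elim0, ?_⟩
    intro i j
    have hz : ∀ k, s k = 0 := fun k =>
      (Finset.sum_eq_zero_iff_of_nonneg (fun k _ => hs0 k)).mp hSzero.symm k (Finset.mem_univ k)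
    have hz2 : ∀ k, |x i k - x j k| ^ p = 0 := by
      intro k
      have := hsa k (i, j)
      rw [hz k, zero_mul] at this
      exact le_antisymm this (ha0 k (i, j))
    simp [hz2]

theorem core_scaled (p : ℝ) (hp : 1 ≤ p) (ε : ℝ) (hε0 : 0 < ε) (hε1 : ε < 1) (n T : ℕ) (Sb : ℝ)
    (hSb : 0 < Sb) (hT0 : 0 < T)
    (hT : 2 * ((n : ℝ) * n) *
      Real.exp (-(T * ε ^ 2 / (4 * Sb))) < 1)
    (m : ℕ) (x : Fin n → Fin m → ℝ)
    (hsens : ∃ s : Fin m → ℝ, (∀ k, 0 ≤ s k) ∧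
      (∀ k (e : Fin n × Fin n),
        |x e.1 k - x e.2 k| ^ p ≤ s k * ∑ k', |x e.1 k' - x e.2 k'| ^ p) ∧
      ∑ k, s k ≤ Sb) :
    ∃ d : ℕ, d ≤ T ∧ ∃ (κ : Fin d → Fin m) (c : Fin d → ℝ), ∀ i j,
      ∑ k, |x i k - x j k| ^ p ≤ ∑ t, |c t * x i (κ t) - c t * x j (κ t)| ^ p ∧
      ∑ t, |c t * x i (κ t) - c t * x j (κ t)| ^ p ≤
        ((1 + ε) / (1 - ε)) * ∑ k, |x i k - x j k| ^ p := by
  have hp0 : 0 < p := by linarith
  have hpne : p ≠ 0 := hp0.ne'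
  obtain ⟨d, hd, κ, c, hc, h⟩ := core p hp ε hε0 hε1 n T Sb hSb hT0 hT m x hsens
  have h1ε : 0 < 1 - ε := by linarith
  have hb : 0 ≤ (1 - ε)⁻¹ := by positivity
  refine ⟨d, hd, κ, fun t => ((1 - ε)⁻¹) ^ (1 / p) * c t, ?_⟩
  intro i j
  have hterm : ∀ t, |((1 - ε)⁻¹) ^ (1 / p) * c t * x i (κ t) -
      ((1 - ε)⁻¹) ^ (1 / p) * c t * x j (κ t)| ^ p =
      (1 - ε)⁻¹ * |c t * x i (κ t) - c t * x j (κ t)| ^ p := by
    intro t
    rw [mul_assoc, mul_assoc, ← mul_sub, abs_mul, abs_of_nonneg (Real.rpow_nonneg hb _),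
      Real.mul_rpow (Real.rpow_nonneg hb _) (abs_nonneg _), ← Real.rpow_mul hb,
      one_div_mul_cancel hpne, Real.rpow_one]
  rw [Finset.sum_congr rfl (fun t _ => hterm t), ← Finset.mul_sum]
  obtain ⟨h1, h2⟩ := h i j
  constructor
  · have := mul_le_mul_of_nonneg_left h1 hb
    rwa [← mul_assoc, inv_mul_cancel₀ h1ε.ne', one_mul] at this
  · have := mul_le_mul_of_nonneg_left h2 hb
    calc _ ≤ (1 - ε)⁻¹ * ((1 + ε) * ∑ k, |x i k - x j k| ^ p) := this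
      _ = ((1 + ε) / (1 - ε)) * ∑ k, |x i k - x j k| ^ p := by
        rw [div_eq_mul_inv]; ring


theorem param_bounds (Sc : ℝ) (hSc : 0 < Sc) (ε : ℝ) (hε0 : 0 < ε) (n : ℕ) (hn : 2 ≤ n) :
    ∃ T : ℕ, 0 < T ∧
      2 * ((n : ℝ) * n) * Real.exp (-(T * ε ^ 2 / (4 * (Sc * n)))) < 1 ∧
      (T : ℝ) ≤ (12 * Sc / ε ^ 2 + 1 / Real.log 2) * n * Real.log n := by
  have hlog2 : 0 < Real.log 2 := Real.log_pos (by norm_num)
  have hn0 : (0 : ℝ) < n := by exact_mod_cast (by omega : 0 < n)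
  have hn2 : (2 : ℝ) ≤ n := by exact_mod_cast hn
  have hlogn : Real.log 2 ≤ Real.log n := Real.log_le_log (by norm_num) hn2
  have hlogn0 : 0 < Real.log n := lt_of_lt_of_le hlog2 hlogn
  set S : ℝ := Sc * n with hS
  have hSpos : 0 < S := by positivity
  set T : ℕ := ⌊12 * S * Real.log n / ε ^ 2⌋₊ + 1 with hT
  have hTgt : 12 * S * Real.log n / ε ^ 2 < T := by
    rw [hT]; push_cast
    exact Nat.lt_floor_add_one _
  have hTle : (T : ℝ) ≤ 12 * S * Real.log n / ε ^ 2 + 1 := by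
    rw [hT]; push_cast
    have := Nat.floor_le (a := 12 * S * Real.log n / ε ^ 2) (by positivity)
    linarith
  refine ⟨T, by omega, ?_, ?_⟩
  · have h1 : 3 * Real.log n < T * ε ^ 2 / (4 * S) := by
      rw [lt_div_iff₀ (by positivity)]
      rw [div_lt_iff₀ (by positivity)] at hTgt
      linarith
    have h2 : Real.exp (-(T * ε ^ 2 / (4 * S))) < Real.exp (-(3 * Real.log n)) :=
      Real.exp_lt_exp.mpr (neg_lt_neg h1)
    have h3 : Real.exp (-(3 * Real.log n)) = 1 / (n : ℝ) ^ 3 := by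
      rw [Real.exp_neg, show (3 : ℝ) * Real.log n = ((3 : ℕ) : ℝ) * Real.log n by norm_num,
        Real.exp_nat_mul, Real.exp_log hn0, one_div]
    rw [h3] at h2
    calc 2 * ((n : ℝ) * n) * Real.exp (-(T * ε ^ 2 / (4 * S)))
        < 2 * ((n : ℝ) * n) * (1 / (n : ℝ) ^ 3) := by
          apply mul_lt_mul_of_pos_left h2 (by positivity)
      _ = 2 / n := by field_simp
      _ ≤ 1 := by rw [div_le_one hn0]; exact hn2
  · have h4 : (1 : ℝ) ≤ 1 / Real.log 2 * n * Real.log n := by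
      have h6 : (1 : ℝ) ≤ 1 / Real.log 2 * Real.log n := by
        rw [one_div, inv_mul_eq_div, one_le_div hlog2]; exact hlogn
      have h7 : 1 / Real.log 2 * n * Real.log n = n * (1 / Real.log 2 * Real.log n) := by ring
      rw [h7]
      nlinarith
    calc (T : ℝ) ≤ 12 * S * Real.log n / ε ^ 2 + 1 := hTle
      _ ≤ 12 * Sc / ε ^ 2 * n * Real.log n + 1 / Real.log 2 * n * Real.log n := by
          have : 12 * S * Real.log n / ε ^ 2 = 12 * Sc / ε ^ 2 * n * Real.log n := by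
            rw [hS]; ring
          rw [this]; linarith
      _ = _ := by ring

theorem main_pow (p : ℝ) (hp : 1 ≤ p) (D : ℝ) (hD : 1 < D) :
    ∃ C : ℝ, ∀ n : ℕ, 2 ≤ n → ∀ (m : ℕ) (x : Fin n → Fin m → ℝ),
      ∃ (d : ℕ) (κ : Fin d → Fin m) (c : Fin d → ℝ),
        (d : ℝ) ≤ C * n * Real.log n ∧
        ∀ i j, ∑ k, |x i k - x j k| ^ p ≤ ∑ t, |c t * x i (κ t) - c t * x j (κ t)| ^ p ∧
          ∑ t, |c t * x i (κ t) - c t * x j (κ t)| ^ p ≤ D ^ p * ∑ k, |x i k - x j k| ^ p := by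
  have hp0 : 0 < p := by linarith
  have hDp : 1 < D ^ p := Real.one_lt_rpow hD hp0
  set ε : ℝ := (D ^ p - 1) / (D ^ p + 1) with hε
  have hε0 : 0 < ε := by
    apply div_pos <;> linarith
  have hε1 : ε < 1 := by
    rw [hε, div_lt_one (by linarith)]; linarith
  have hratio : (1 + ε) / (1 - ε) = D ^ p := by
    have h1 : D ^ p + 1 ≠ 0 := by linarith
    rw [hε]
    field_simp
    ring
  have hSc : 0 < 14 * C1 p := by
    have := C1_pos p hp
    positivity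
  refine ⟨12 * (14 * C1 p) / ε ^ 2 + 1 / Real.log 2, ?_⟩
  intro n hn m x
  have hn0 : (0 : ℝ) < n := by exact_mod_cast (by omega : 0 < n)
  obtain ⟨T, hT0, hT, hTle⟩ := param_bounds (14 * C1 p) hSc ε hε0 n hn
  obtain ⟨d, hd, κ, c, h⟩ := core_scaled p hp ε hε0 hε1 n T (14 * C1 p * n) (by positivity) hT0 hT
    m x (total_sensitivity p hp n m x)
  refine ⟨d, κ, c, ?_, ?_⟩
  · have : (d : ℝ) ≤ T := by exact_mod_cast hd
    exact this.trans hTle
  · intro i j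
    have := h i j
    rw [hratio] at this
    exact this

end Vale.Agent.P249.L
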