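import Vale.Agent.P249.L.Defs

/-! P249: the growth lemma (pure real analysis). -/

namespace Vale.Agent.P249.L

/-- [G1] `(y+1)^D ≤ y^D + D 2^(D-1) y^(D-1)` for `y ≥ 1`.
(Mean value / induction: `(y+1)^D - y^D ≤ D (y+1)^(D-1) ≤ D (2y)^(D-1)`.) -/
theorem pow_succ_step (D : ℕ) (hD : 1 ≤ D) (y : ℝ) (hy : 1 ≤ y) :
    (y + 1) ^ D ≤ y ^ D + D * 2 ^ (D - 1) * y ^ (D - 1) := by
  obtain ⟨n, rfl⟩ : ∃ n, D = n + 1 := ⟨D - 1, by omega⟩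
  simp only [Nat.add_sub_cancel]
  induction n with
  | zero => simp
  | succ n ih =>
    have ih' := ih (by omega)
    have hy0 : (0 : ℝ) ≤ y := by linarith
    have h1 : (y + 1) ^ (n + 1 + 1) = (y + 1) * (y + 1) ^ (n + 1) := by ring
    have h2 : (y + 1) * (y + 1) ^ (n + 1) ≤
        (y + 1) * (y ^ (n + 1) + ((n + 1 : ℕ) : ℝ) * 2 ^ n * y ^ n) :=
      mul_le_mul_of_nonneg_left ih' (by linarith)
    have hyn : 0 ≤ y ^ n := pow_nonneg hy0 n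
    have h2n : (1 : ℝ) ≤ 2 ^ n := one_le_pow₀ (by norm_num)
    have hn0 : (0 : ℝ) ≤ (n : ℝ) := Nat.cast_nonneg n
    rw [h1]
    refine h2.trans ?_
    push_cast
    have e1 : (y + 1) * (y ^ (n + 1) + ((n : ℝ) + 1) * 2 ^ n * y ^ n)
        = y ^ (n + 1 + 1) + y ^ n * (y + ((n : ℝ) + 1) * 2 ^ n * (y + 1)) := by ring
    have e2 : y ^ (n + 1 + 1) + ((n : ℝ) + 1 + 1) * 2 ^ (n + 1) * y ^ (n + 1)
        = y ^ (n + 1 + 1) + y ^ n * (((n : ℝ) + 1 + 1) * (2 * 2 ^ n) * y) := by ring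
    rw [e1, e2]
    have key : y + ((n : ℝ) + 1) * 2 ^ n * (y + 1) ≤ ((n : ℝ) + 1 + 1) * (2 * 2 ^ n) * y := by
      have a1 : ((n : ℝ) + 1) * 2 ^ n * (y + 1) ≤ ((n : ℝ) + 1) * 2 ^ n * (2 * y) := by
        apply mul_le_mul_of_nonneg_left (by linarith)
        positivity
      have a2 : y ≤ 2 * 2 ^ n * y := by nlinarith
      nlinarith
    have := mul_le_mul_of_nonneg_left key hyn
    linarith

/-- [G2] positivity and size of the constants. `aG ≤ κ` because `κ / (D 2^(D+1)) ≤ κ ≤ 1` and `D ≥ 1`. -/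
theorem aG_pos (D : ℕ) (hD : 1 ≤ D) (κ : ℝ) (hκ0 : 0 < κ) : 0 < aG D κ := by
  unfold aG
  have : (0 : ℝ) < D := by exact_mod_cast hD
  positivity

theorem aG_le (D : ℕ) (hD : 1 ≤ D) (κ : ℝ) (hκ0 : 0 < κ) (hκ1 : κ ≤ 1) : aG D κ ≤ κ := by
  unfold aG
  have hD0 : (1 : ℝ) ≤ D := by exact_mod_cast hD
  have h2 : (1 : ℝ) ≤ 2 ^ (D + 1) := one_le_pow₀ (by norm_num)
  have hden : (1 : ℝ) ≤ D * 2 ^ (D + 1) := by nlinarith
  have hb : κ / (D * 2 ^ (D + 1)) ≤ κ := div_le_self hκ0.le hden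
  have hb0 : 0 ≤ κ / (D * 2 ^ (D + 1)) := by positivity
  exact (pow_le_of_le_one hb0 (hb.trans hκ1) (by omega)).trans hb

theorem cG_pos (p : ℝ) (D : ℕ) (hD : 1 ≤ D) (κ : ℝ) (hκ0 : 0 < κ) : 0 < cG p D κ := by
  unfold cG
  have h := aG_pos D hD κ hκ0
  have h1 : 0 < (aG D κ / 2) ^ (1 - 1 / (D : ℝ)) := Real.rpow_pos_of_pos (by linarith) _
  have h2 : (0 : ℝ) < 8 ^ p := Real.rpow_pos_of_pos (by norm_num) _
  positivity

/-- [G3] with `b = κ / (D 2^(D+1))`, `a = b^D`: `(a/2)^γ = b^(D-1) 2^(-γ) ≥ b^(D-1) / 2`, hence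
`κ (a/2)^γ / 2 ≥ κ b^(D-1) / 4 = a D 2^(D-1)`. -/
theorem aG_key (D : ℕ) (hD : 1 ≤ D) (κ : ℝ) (hκ0 : 0 < κ) :
    aG D κ * (D * 2 ^ (D - 1)) ≤ κ * (aG D κ / 2) ^ (1 - 1 / (D : ℝ)) / 2 := by
  have hD0 : (0 : ℝ) < D := by exact_mod_cast hD
  have hD1 : (1 : ℝ) ≤ D := by exact_mod_cast hD
  set b : ℝ := κ / (D * 2 ^ (D + 1)) with hb
  have hb0 : 0 < b := by positivity
  have ha : aG D κ = b ^ D := rfl
  obtain ⟨n, rfl⟩ : ∃ n, D = n + 1 := ⟨D - 1, by omega⟩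
  have hγ : (1 - 1 / ((n + 1 : ℕ) : ℝ)) = (n : ℝ) / ((n + 1 : ℕ) : ℝ) := by
    field_simp
    push_cast
    ring
  have h1 : (b ^ (n + 1)) ^ (1 - 1 / ((n + 1 : ℕ) : ℝ)) = b ^ n := by
    rw [← Real.rpow_natCast b (n + 1), ← Real.rpow_mul hb0.le, hγ]
    rw [mul_div_cancel₀ _ hD0.ne', Real.rpow_natCast]
  have h2 : (1 / 2 : ℝ) ≤ (1 / 2 : ℝ) ^ (1 - 1 / ((n + 1 : ℕ) : ℝ)) := by
    have : (1 / 2 : ℝ) ^ (1 : ℝ) ≤ (1 / 2 : ℝ) ^ (1 - 1 / ((n + 1 : ℕ) : ℝ)) := by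
      apply Real.rpow_le_rpow_of_exponent_ge (by norm_num) (by norm_num)
      have : 0 ≤ 1 / ((n + 1 : ℕ) : ℝ) := by positivity
      linarith
    simpa using this
  have h3 : (aG (n + 1) κ / 2) ^ (1 - 1 / ((n + 1 : ℕ) : ℝ))
      = b ^ n * (1 / 2 : ℝ) ^ (1 - 1 / ((n + 1 : ℕ) : ℝ)) := by
    rw [ha, div_eq_mul_one_div, Real.mul_rpow (by positivity) (by norm_num), h1]
  rw [h3, ha]
  simp only [Nat.add_sub_cancel]
  have h4 : b * (((n + 1 : ℕ) : ℝ) * 2 ^ n) = κ / 4 := by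
    rw [hb]
    field_simp
    ring
  have h5 : b ^ (n + 1) * (((n + 1 : ℕ) : ℝ) * 2 ^ n) = b ^ n * (κ / 4) := by
    rw [← h4]; ring
  rw [h5]
  have hbn : 0 < b ^ n := by positivity
  have : b ^ n * (κ / 4) = κ * (b ^ n * (1 / 2)) / 2 := by ring
  rw [this]
  have h6 : b ^ n * (1 / 2) ≤ b ^ n * (1 / 2 : ℝ) ^ (1 - 1 / ((n + 1 : ℕ) : ℝ)) :=
    mul_le_mul_of_nonneg_left h2 hbn.le
  have := mul_le_mul_of_nonneg_left h6 hκ0.le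
  linarith

/-- auxiliary one-step form of [G4] with a real parameter `y = j + 1` -/
theorem growth_step_aux (p : ℝ) (hp : 1 ≤ p) (D : ℕ) (hD : 2 * p + 1 ≤ D) (κ : ℝ) (hκ0 : 0 < κ)
    (y : ℝ) (hy1 : 1 ≤ y) (t t' : ℝ) (ih : aG D κ * y ^ D ≤ t)
    (hs : t + κ * (t / 2) ^ (1 - 1 / (D : ℝ)) - cG p D κ * (8 * y ^ 2) ^ p ≤ t') :
    aG D κ * (y + 1) ^ D ≤ t' := by
  have hD1 : 1 ≤ D := by
    have : (1 : ℝ) ≤ D := by linarith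
    exact_mod_cast this
  have ha0 : 0 < aG D κ := aG_pos D hD1 κ hκ0
  have hDpos : (0 : ℝ) < D := by linarith
  have hγ0 : 0 ≤ 1 - 1 / (D : ℝ) := by
    have : 1 / (D : ℝ) ≤ 1 := by
      rw [div_le_one hDpos]; linarith
    linarith
  have hy0 : 0 < y := by linarith
  have h1 : (aG D κ * y ^ D / 2) ^ (1 - 1 / (D : ℝ)) ≤ (t / 2) ^ (1 - 1 / (D : ℝ)) := by
    apply Real.rpow_le_rpow _ _ hγ0
    · positivity
    · linarith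
  have h2 : (aG D κ * y ^ D / 2) ^ (1 - 1 / (D : ℝ))
      = (aG D κ / 2) ^ (1 - 1 / (D : ℝ)) * y ^ (D - 1) := by
    have h : aG D κ * y ^ D / 2 = (aG D κ / 2) * y ^ D := by ring
    rw [h, Real.mul_rpow (by positivity) (by positivity)]
    congr 1
    rw [← Real.rpow_natCast y D, ← Real.rpow_mul hy0.le, ← Real.rpow_natCast y (D - 1)]
    congr 1
    rw [Nat.cast_sub hD1]
    field_simp
    simp
  have h3 : (8 * y ^ 2) ^ p ≤ 8 ^ p * y ^ (D - 1) := by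
    rw [Real.mul_rpow (by norm_num) (by positivity)]
    apply mul_le_mul_of_nonneg_left _ (by positivity)
    rw [← Real.rpow_natCast y 2, ← Real.rpow_mul hy0.le, ← Real.rpow_natCast y (D - 1)]
    apply Real.rpow_le_rpow_of_exponent_le hy1
    rw [Nat.cast_sub hD1]
    push_cast
    linarith
  have h4 : cG p D κ * 8 ^ p = κ * (aG D κ / 2) ^ (1 - 1 / (D : ℝ)) / 2 := by
    unfold cG
    have h8 : (8 : ℝ) ^ p ≠ 0 := (Real.rpow_pos_of_pos (by norm_num) p).ne'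
    field_simp
  have h5 := aG_key D hD1 κ hκ0
  have h6 := pow_succ_step D hD1 y hy1
  have hc0 : 0 < cG p D κ := cG_pos p D hD1 κ hκ0
  have hyD : 0 ≤ y ^ (D - 1) := by positivity
  have h7 : cG p D κ * (8 * y ^ 2) ^ p
      ≤ κ * (aG D κ / 2) ^ (1 - 1 / (D : ℝ)) / 2 * y ^ (D - 1) := by
    calc cG p D κ * (8 * y ^ 2) ^ p ≤ cG p D κ * (8 ^ p * y ^ (D - 1)) :=
          mul_le_mul_of_nonneg_left h3 hc0.le
      _ = (cG p D κ * 8 ^ p) * y ^ (D - 1) := by ring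
      _ = _ := by rw [h4]
  have h8 : κ * ((aG D κ / 2) ^ (1 - 1 / (D : ℝ)) * y ^ (D - 1))
      ≤ κ * (t / 2) ^ (1 - 1 / (D : ℝ)) := by
    rw [← h2]
    exact mul_le_mul_of_nonneg_left h1 hκ0.le
  have h9 : aG D κ * (D * 2 ^ (D - 1)) * y ^ (D - 1)
      ≤ κ * (aG D κ / 2) ^ (1 - 1 / (D : ℝ)) / 2 * y ^ (D - 1) :=
    mul_le_mul_of_nonneg_right h5 hyD
  have h10 : aG D κ * (y + 1) ^ D
      ≤ aG D κ * (y ^ D + D * 2 ^ (D - 1) * y ^ (D - 1)) :=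
    mul_le_mul_of_nonneg_left h6 ha0.le
  nlinarith [h7, h8, h9, h10, ih, hs]

/-- [G4] the induction.  Claim `a (j+1)^D ≤ ν j` with `a = aG D κ`.  Base: `aG_le`.  Step: the map
`t ↦ t + κ (t/2)^γ` is monotone on `t ≥ 0`; `(a (j+1)^D / 2)^γ = (a/2)^γ (j+1)^(D-1)`;
`(8 (j+1)^2)^p = 8^p (j+1)^(2p) ≤ 8^p (j+1)^(D-1)`; `cG * 8^p = κ (a/2)^γ / 2`; then `aG_key` and
`pow_succ_step` with `y = j+1`. -/
theorem growth_lower (p : ℝ) (hp : 1 ≤ p) (D : ℕ) (hD : 2 * p + 1 ≤ D) (κ : ℝ) (hκ0 : 0 < κ)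
    (hκ1 : κ ≤ 1) (ν : ℕ → ℝ) (h0 : κ ≤ ν 0)
    (hstep : ∀ j : ℕ, ν j + κ * (ν j / 2) ^ (1 - 1 / (D : ℝ)) -
      cG p D κ * (8 * ((j : ℝ) + 1) ^ 2) ^ p ≤ ν (j + 1)) (j : ℕ) :
    aG D κ * ((j : ℝ) + 1) ^ D ≤ ν j := by
  have hD1 : 1 ≤ D := by
    have : (1 : ℝ) ≤ D := by linarith
    exact_mod_cast this
  induction j with
  | zero =>
    simp only [Nat.cast_zero, zero_add, one_pow, mul_one]
    exact (aG_le D hD1 κ hκ0 hκ1).trans h0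
  | succ j ih =>
    have hy1 : (1 : ℝ) ≤ (j : ℝ) + 1 := by
      have : (0 : ℝ) ≤ (j : ℝ) := Nat.cast_nonneg j
      linarith
    have := growth_step_aux p hp D hD κ hκ0 ((j : ℝ) + 1) hy1 (ν j) (ν (j + 1)) ih (hstep j)
    simpa using this

/-- [G5] such a sequence is unbounded (from `growth_lower`, `aG_pos`, `(j+1)^D ≥ j+1`, Archimedes). -/
theorem growth_unbounded (p : ℝ) (hp : 1 ≤ p) (D : ℕ) (hD : 2 * p + 1 ≤ D) (κ : ℝ) (hκ0 : 0 < κ)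
    (hκ1 : κ ≤ 1) (ν : ℕ → ℝ) (h0 : κ ≤ ν 0)
    (hstep : ∀ j : ℕ, ν j + κ * (ν j / 2) ^ (1 - 1 / (D : ℝ)) -
      cG p D κ * (8 * ((j : ℝ) + 1) ^ 2) ^ p ≤ ν (j + 1)) (B : ℝ) :
    ∃ j, B < ν j := by
  have hD1 : 1 ≤ D := by
    have : (1 : ℝ) ≤ D := by linarith
    exact_mod_cast this
  have ha := aG_pos D hD1 κ hκ0
  obtain ⟨j, hj⟩ := exists_nat_gt (B / aG D κ)
  refine ⟨j, ?_⟩
  have h1 := growth_lower p hp D hD κ hκ0 hκ1 ν h0 hstep j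
  have h2 : (j : ℝ) + 1 ≤ ((j : ℝ) + 1) ^ D := by
    have : (1 : ℝ) ≤ (j : ℝ) + 1 := by
      have : (0 : ℝ) ≤ j := Nat.cast_nonneg j
      linarith
    exact le_self_pow₀ this (by omega)
  have h3 : B < aG D κ * ((j : ℝ) + 1) := by
    rw [div_lt_iff₀ ha] at hj
    nlinarith
  have h4 : aG D κ * ((j : ℝ) + 1) ≤ aG D κ * ((j : ℝ) + 1) ^ D :=
    mul_le_mul_of_nonneg_left h2 ha.le
  linarith

end Vale.Agent.P249.L
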