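import Vale.Agent.P249.L.Growth

/-! P249: in a core the `p`-energy controls the oscillation (volume growth argument). -/

namespace Vale.Agent.P249.L

variable {V : Type*} [DecidableEq V]

/-- [B1] -/
theorem cut_eq_add (w : V → V → ℝ) (X H : Finset V) (hX : X ⊆ H) :
    cut w X H = EE w X + cut w X (H \ X) := by
  unfold EE cut
  rw [← Finset.sum_add_distrib]
  refine Finset.sum_congr rfl fun u _ => ?_
  rw [add_comm, Finset.sum_sdiff hX]

/-- [B1] -/
theorem cut_split (w : V → V → ℝ) (X X' H : Finset V) (hX : X ⊆ X') (hX' : X' ⊆ H) :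
    cut w X (H \ X) = cut w X (X' \ X) + cut w X (H \ X') := by
  unfold cut
  rw [← Finset.sum_add_distrib]
  refine Finset.sum_congr rfl fun u _ => ?_
  have h1 : X' \ X ⊆ H \ X := Finset.sdiff_subset_sdiff hX' (Finset.Subset.refl _)
  have h2 : (H \ X) \ (X' \ X) = H \ X' := by
    ext v
    simp only [Finset.mem_sdiff]
    constructor
    · rintro ⟨⟨h, hx⟩, h3⟩
      exact ⟨h, fun h4 => h3 ⟨h4, hx⟩⟩
    · rintro ⟨h, h3⟩
      exact ⟨⟨h, fun h4 => h3 (hX h4)⟩, fun h4 => h3 h4.1⟩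
  rw [← Finset.sum_sdiff h1, h2, add_comm]

/-- [B2] `cut X' H = cut X H + cut (X' \ X) H` and `cut (X' \ X) H ≥ cut (X' \ X) X = cut X (X' \ X)`. -/
theorem cut_le_vol_diff (w : V → V → ℝ) (hw0 : ∀ u v, 0 ≤ w u v) (hsym : ∀ u v, w u v = w v u)
    (X X' H : Finset V) (hX : X ⊆ X') (hX' : X' ⊆ H) :
    cut w X (X' \ X) ≤ cut w X' H - cut w X H := by
  have h1 : cut w X' H = cut w (X' \ X) H + cut w X H := by
    unfold cut
    rw [Finset.sum_sdiff hX]
  have h2 : cut w X (X' \ X) = cut w (X' \ X) X := by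
    unfold cut
    rw [Finset.sum_comm]
    refine Finset.sum_congr rfl fun u _ => Finset.sum_congr rfl fun v _ => hsym _ _
  have h3 : cut w (X' \ X) X ≤ cut w (X' \ X) H := by
    unfold cut
    refine Finset.sum_le_sum fun u _ => ?_
    exact Finset.sum_le_sum_of_subset_of_nonneg (hX.trans hX') fun v _ _ => hw0 _ _
  rw [h1, h2]
  linarith

/-- [B3] restrict the double sum of the energy to `u ∈ X`, `v ∈ H \ X'`. -/
theorem energy_ge_cut (w : V → V → ℝ) (hw0 : ∀ u v, 0 ≤ w u v) (p : ℝ) (hp : 1 ≤ p)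
    (X X' H : Finset V) (hX : X ⊆ H) (f : V → ℝ) (η : ℝ) (hη : 0 ≤ η)
    (hf : ∀ u ∈ X, ∀ v ∈ H \ X', η ≤ f u - f v) :
    cut w X (H \ X') * η ^ p ≤ energy w p H f := by
  unfold cut energy
  rw [Finset.sum_mul]
  have h1 : ∀ u ∈ X, (∑ v ∈ H \ X', w u v) * η ^ p ≤ ∑ v ∈ H, w u v * |f u - f v| ^ p := by
    intro u hu
    rw [Finset.sum_mul]
    refine le_trans (Finset.sum_le_sum (fun v hv => ?_))
      (Finset.sum_le_sum_of_subset_of_nonneg Finset.sdiff_subset (fun v _ _ =>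
        mul_nonneg (hw0 u v) (Real.rpow_nonneg (abs_nonneg _) p)))
    refine mul_le_mul_of_nonneg_left ?_ (hw0 u v)
    exact Real.rpow_le_rpow hη (le_trans (hf u hu v hv) (le_abs_self _)) (by linarith)
  refine le_trans (Finset.sum_le_sum h1)
    (Finset.sum_le_sum_of_subset_of_nonneg hX (fun u _ _ => Finset.sum_nonneg (fun v _ =>
      mul_nonneg (hw0 u v) (Real.rpow_nonneg (abs_nonneg _) p))))

/-- [B4] Put `ν = cut w X H / δ` (normalised volume), `P = cut w X (H \ X)`.  By `cut_eq_add` and `dens`,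
`ν ≤ |X| + P / δ`.  If `|X| ≥ ν / 2` use `iso` and monotonicity of `t ↦ t^γ`.  Otherwise
`P / δ > ν / 2 > |X| ≥ 1`, so `P / δ ≥ ν / 2 ≥ (ν / 2)^γ ≥ κ (ν / 2)^γ`. -/
theorem cut_ge_vol (w : V → V → ℝ) (H : Finset V) (δ κ γ : ℝ) (hc : IsCore w H δ κ γ)
    (hκ0 : 0 < κ) (hκ1 : κ ≤ 1) (hγ0 : 0 < γ) (hγ1 : γ ≤ 1) (X : Finset V) (hX : X ⊆ H)
    (hXn : X.Nonempty) (hXh : 2 * X.card ≤ H.card) :
    κ * δ * (cut w X H / δ / 2) ^ γ ≤ cut w X (H \ X) := by
  have hδ := hc.pos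
  have hcut0 : 0 ≤ cut w X H :=
    Finset.sum_nonneg (fun u _ => Finset.sum_nonneg (fun v _ => hc.nonneg u v))
  have hsplit := cut_eq_add w X H hX
  have hdens := hc.dens X hX
  have hiso := hc.iso X hX hXn hXh
  set ν : ℝ := cut w X H / δ with hν
  set P : ℝ := cut w X (H \ X) with hP
  have hν0 : 0 ≤ ν := div_nonneg hcut0 hδ.le
  have hνδ : ν * δ = cut w X H := by
    rw [hν]
    field_simp
  have hcard1 : (1 : ℝ) ≤ X.card := by
    exact_mod_cast Finset.card_pos.mpr hXn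
  by_cases hcase : ν / 2 ≤ (X.card : ℝ)
  · have h1 : (ν / 2) ^ γ ≤ (X.card : ℝ) ^ γ :=
      Real.rpow_le_rpow (by positivity) hcase hγ0.le
    calc κ * δ * (ν / 2) ^ γ ≤ κ * δ * (X.card : ℝ) ^ γ :=
          mul_le_mul_of_nonneg_left h1 (by positivity)
      _ ≤ P := hiso
  · push Not at hcase
    have h1 : (1 : ℝ) ≤ ν / 2 := by linarith
    have h2 : (ν / 2) ^ γ ≤ ν / 2 := by
      calc (ν / 2) ^ γ ≤ (ν / 2) ^ (1 : ℝ) := Real.rpow_le_rpow_of_exponent_le h1 hγ1
        _ = ν / 2 := Real.rpow_one _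
    have h3 : 0 ≤ (ν / 2) ^ γ := Real.rpow_nonneg (by positivity) _
    have h4 : δ * (ν / 2) ≤ P := by
      have h5 : δ * (X.card : ℝ) < δ * (ν / 2) := mul_lt_mul_of_pos_left hcase hδ
      nlinarith
    calc κ * δ * (ν / 2) ^ γ = κ * (δ * (ν / 2) ^ γ) := by ring
      _ ≤ 1 * (δ * (ν / 2) ^ γ) := mul_le_mul_of_nonneg_right hκ1 (by positivity)
      _ = δ * (ν / 2) ^ γ := one_mul _
      _ ≤ δ * (ν / 2) := mul_le_mul_of_nonneg_left h2 hδ.le
      _ ≤ P := h4

/-- [B5] one step of the growth: for `X ⊆ X' ⊆ H` such that `f` drops by at least `η > 0` from `X` to the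
outside of `X'`.  (`cut_split`, `cut_le_vol_diff`, `energy_ge_cut`.) -/
theorem vol_step (w : V → V → ℝ) (hw0 : ∀ u v, 0 ≤ w u v) (hsym : ∀ u v, w u v = w v u)
    (p : ℝ) (hp : 1 ≤ p) (X X' H : Finset V) (hX : X ⊆ X') (hX' : X' ⊆ H) (f : V → ℝ) (η : ℝ)
    (hη : 0 < η) (hf : ∀ u ∈ X, ∀ v ∈ H \ X', η ≤ f u - f v) :
    cut w X (H \ X) - energy w p H f / η ^ p ≤ cut w X' H - cut w X H := by
  have h1 := cut_split w X X' H hX hX'
  have h2 := cut_le_vol_diff w hw0 hsym X X' H hX hX'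
  have h3 := energy_ge_cut w hw0 p hp X X' H (hX.trans hX') f η hη.le hf
  have hpos : 0 < η ^ p := Real.rpow_pos_of_pos hη p
  have h4 : cut w X (H \ X') ≤ energy w p H f / η ^ p := by
    rw [le_div_iff₀ hpos]
    exact h3
  linarith

/-- [B6] If the energy is small, more than half of `H` lies within `ω / 4` below `f x0`.
Proof by contradiction.  `X j = {v ∈ H : f x0 - ω * (j / (4 (j+1))) ≤ f v}` contains `x0`, is increasing in `j`
and is contained in the set of the statement, so `2 |X j| ≤ |H|` for all `j`.  `ν j = cut w (X j) H / δ`.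
`ν 0 ≥ κ` (`iso`, `|X 0|^γ ≥ 1`, `cut_eq_add`, `EE ≥ 0`).  The drop from `X j` to the outside of `X (j+1)` is
`> η = ω / (4 (j+1) (j+2)) ≥ ω / (8 (j+1)^2)`; `vol_step` + `cut_ge_vol` + `hE` give the hypothesis
`hstep` of `growth_unbounded`; but `ν j ≤ cut w H H / δ`. -/
theorem many_near_top (p : ℝ) (hp : 1 ≤ p) (D : ℕ) (hD : 2 * p + 1 ≤ D) (κ : ℝ) (hκ0 : 0 < κ)
    (hκ1 : κ ≤ 1) (w : V → V → ℝ) (H : Finset V) (δ : ℝ)
    (hc : IsCore w H δ κ (1 - 1 / (D : ℝ))) (f : V → ℝ) (x0 : V) (hx0 : x0 ∈ H) (ω : ℝ)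
    (hω : 0 < ω) (hE : energy w p H f < cG p D κ * δ * ω ^ p) :
    H.card < 2 * (H.filter (fun v => f x0 - ω / 4 ≤ f v)).card := by
  by_contra hcon
  rw [not_lt] at hcon
  have hδ := hc.pos
  have hDpos : (0 : ℝ) < D := by linarith
  have hD3 : (3 : ℝ) ≤ D := by linarith
  have hγ1 : 1 - 1 / (D : ℝ) ≤ 1 := by
    have : 0 ≤ 1 / (D : ℝ) := by positivity
    linarith
  have hγ0 : 0 < 1 - 1 / (D : ℝ) := by
    have : 1 / (D : ℝ) < 1 := by
      rw [div_lt_one hDpos]; linarith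
    linarith
  set γ : ℝ := 1 - 1 / (D : ℝ) with hγ
  set τ : ℕ → ℝ := fun j => ω * ((j : ℝ) / (4 * ((j : ℝ) + 1))) with hτ
  set X : ℕ → Finset V := fun j => H.filter (fun v => f x0 - τ j ≤ f v) with hXdef
  have hτ0 : ∀ j, 0 ≤ τ j := fun j => by
    simp only [hτ]; positivity
  have hτ4 : ∀ j, τ j ≤ ω / 4 := fun j => by
    simp only [hτ]
    have hj : (0 : ℝ) < (j : ℝ) + 1 := by positivity
    have : (j : ℝ) / (4 * ((j : ℝ) + 1)) ≤ 1 / 4 := by
      rw [div_le_div_iff₀ (by positivity) (by norm_num)]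
      linarith
    calc ω * ((j : ℝ) / (4 * ((j : ℝ) + 1))) ≤ ω * (1 / 4) :=
          mul_le_mul_of_nonneg_left this hω.le
      _ = ω / 4 := by ring
  have hτstep : ∀ j : ℕ, τ j + ω / (8 * ((j : ℝ) + 1) ^ 2) ≤ τ (j + 1) := fun j => by
    simp only [hτ]
    have hj : (0 : ℝ) ≤ (j : ℝ) := by positivity
    have e1 : ω * (((j + 1 : ℕ) : ℝ) / (4 * (((j + 1 : ℕ) : ℝ) + 1))) -
        ω * ((j : ℝ) / (4 * ((j : ℝ) + 1))) = ω / (4 * (((j : ℝ) + 1) * ((j : ℝ) + 2))) := by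
      push_cast
      field_simp
      ring
    have e2 : ω / (8 * ((j : ℝ) + 1) ^ 2) ≤ ω / (4 * (((j : ℝ) + 1) * ((j : ℝ) + 2))) := by
      apply div_le_div_of_nonneg_left hω.le (by positivity)
      nlinarith
    linarith
  have hXH : ∀ j, X j ⊆ H := fun j => Finset.filter_subset _ _
  have hXn : ∀ j, (X j).Nonempty := fun j =>
    ⟨x0, Finset.mem_filter.mpr ⟨hx0, by linarith [hτ0 j]⟩⟩
  have hXmono : ∀ j, X j ⊆ X (j + 1) := fun j v hv => by
    obtain ⟨h1, h2⟩ := Finset.mem_filter.mp hv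
    refine Finset.mem_filter.mpr ⟨h1, ?_⟩
    have h3 := hτstep j
    have h4 : 0 ≤ ω / (8 * ((j : ℝ) + 1) ^ 2) := by positivity
    linarith
  have hXhalf : ∀ j, 2 * (X j).card ≤ H.card := fun j => by
    refine le_trans ?_ hcon
    apply Nat.mul_le_mul_left
    apply Finset.card_le_card
    intro v hv
    obtain ⟨h1, h2⟩ := Finset.mem_filter.mp hv
    exact Finset.mem_filter.mpr ⟨h1, by linarith [hτ4 j]⟩
  set ν : ℕ → ℝ := fun j => cut w (X j) H / δ with hν
  have h0 : κ ≤ ν 0 := by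
    have h1 := hc.iso (X 0) (hXH 0) (hXn 0) (hXhalf 0)
    have h2 := cut_eq_add w (X 0) H (hXH 0)
    have h3 : 0 ≤ EE w (X 0) :=
      Finset.sum_nonneg (fun u _ => Finset.sum_nonneg (fun v _ => hc.nonneg u v))
    have h4 : (1 : ℝ) ≤ ((X 0).card : ℝ) ^ γ := by
      apply Real.one_le_rpow _ hγ0.le
      exact_mod_cast Finset.card_pos.mpr (hXn 0)
    have h5 : κ * δ * 1 ≤ κ * δ * ((X 0).card : ℝ) ^ γ :=
      mul_le_mul_of_nonneg_left h4 (by positivity)
    simp only [hν]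
    rw [le_div_iff₀ hδ]
    linarith
  have hstep : ∀ j : ℕ, ν j + κ * (ν j / 2) ^ (1 - 1 / (D : ℝ)) -
      cG p D κ * (8 * ((j : ℝ) + 1) ^ 2) ^ p ≤ ν (j + 1) := by
    intro j
    have hη : 0 < ω / (8 * ((j : ℝ) + 1) ^ 2) := by positivity
    have h1 := vol_step w hc.nonneg hc.symm p hp (X j) (X (j + 1)) H (hXmono j) (hXH (j + 1)) f
      (ω / (8 * ((j : ℝ) + 1) ^ 2)) hη
      (by
        intro u hu v hv
        obtain ⟨_, h2⟩ := Finset.mem_filter.mp hu
        obtain ⟨h3, h4⟩ := Finset.mem_sdiff.mp hv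
        have h5 : f v < f x0 - τ (j + 1) := by
          by_contra h6
          rw [not_lt] at h6
          exact h4 (Finset.mem_filter.mpr ⟨h3, h6⟩)
        have h6 := hτstep j
        linarith)
    have h2 := cut_ge_vol w H δ κ γ hc hκ0 hκ1 hγ0 hγ1 (X j) (hXH j) (hXn j) (hXhalf j)
    have hηp : 0 < (ω / (8 * ((j : ℝ) + 1) ^ 2)) ^ p := Real.rpow_pos_of_pos hη _
    have h3 : energy w p H f / (ω / (8 * ((j : ℝ) + 1) ^ 2)) ^ p ≤
        cG p D κ * δ * (8 * ((j : ℝ) + 1) ^ 2) ^ p := by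
      rw [div_le_iff₀ hηp]
      have e1 : (8 * ((j : ℝ) + 1) ^ 2) ^ p * (ω / (8 * ((j : ℝ) + 1) ^ 2)) ^ p = ω ^ p := by
        rw [← Real.mul_rpow (by positivity) hη.le]
        congr 1
        field_simp
      rw [mul_assoc, e1]
      exact hE.le
    simp only [hν]
    have e2 : cut w (X j) H / δ + κ * (cut w (X j) H / δ / 2) ^ γ -
        cG p D κ * (8 * ((j : ℝ) + 1) ^ 2) ^ p =
        (cut w (X j) H + κ * δ * (cut w (X j) H / δ / 2) ^ γ -
        cG p D κ * δ * (8 * ((j : ℝ) + 1) ^ 2) ^ p) / δ := by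
      field_simp
    rw [e2]
    apply div_le_div_of_nonneg_right _ hδ.le
    linarith
  obtain ⟨j, hj⟩ := growth_unbounded p hp D hD κ hκ0 hκ1 ν h0 hstep (cut w H H / δ)
  have h1 : ν j ≤ cut w H H / δ := by
    simp only [hν]
    apply div_le_div_of_nonneg_right _ hδ.le
    unfold cut
    exact Finset.sum_le_sum_of_subset_of_nonneg (hXH j)
      (fun u _ _ => Finset.sum_nonneg (fun v _ => hc.nonneg u v))
  linarith

/-- [B7] -/
theorem energy_neg (w : V → V → ℝ) (p : ℝ) (H : Finset V) (f : V → ℝ) :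
    energy w p H (fun v => - f v) = energy w p H f := by
  unfold energy
  refine Finset.sum_congr rfl (fun u _ => Finset.sum_congr rfl (fun v _ => ?_))
  rw [neg_sub_neg, abs_sub_comm]

/-- [B8] the oscillation bound.  If `f x = f y` trivial (`energy ≥ 0`).  WLOG `f y < f x`, `ω = f x - f y`.
If the claim fails, `many_near_top` for `f` at `x` and for `-f` at `y` (`energy_neg`) gives two subsets of `H`,
`{f x - ω/4 ≤ f v}` and `{f v ≤ f y + ω/4}`, each with more than `|H| / 2` elements; they are disjoint. -/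
theorem energy_ge (p : ℝ) (hp : 1 ≤ p) (D : ℕ) (hD : 2 * p + 1 ≤ D) (κ : ℝ) (hκ0 : 0 < κ)
    (hκ1 : κ ≤ 1) (w : V → V → ℝ) (H : Finset V) (δ : ℝ)
    (hc : IsCore w H δ κ (1 - 1 / (D : ℝ))) (f : V → ℝ) (x y : V) (hx : x ∈ H) (hy : y ∈ H) :
    cG p D κ * δ * |f x - f y| ^ p ≤ energy w p H f := by
  -- the statement for `f y < f x`, for all functions
  have main : ∀ (f : V → ℝ) (x y : V), x ∈ H → y ∈ H → f y < f x →
      cG p D κ * δ * (f x - f y) ^ p ≤ energy w p H f := by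
    intro f x y hx hy hlt
    by_contra hcon
    have hE : energy w p H f < cG p D κ * δ * (f x - f y) ^ p := not_le.mp hcon
    have hω : 0 < f x - f y := by linarith
    have h1 := many_near_top p hp D hD κ hκ0 hκ1 w H δ hc f x hx (f x - f y) hω hE
    have h2 := many_near_top p hp D hD κ hκ0 hκ1 w H δ hc (fun v => - f v) y hy (f x - f y) hω
      (by rw [energy_neg]; exact hE)
    have hdisj : Disjoint (H.filter (fun v => f x - (f x - f y) / 4 ≤ f v))
        (H.filter (fun v => - f y - (f x - f y) / 4 ≤ - f v)) := by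
      rw [Finset.disjoint_left]
      intro v hv1 hv2
      have a1 := (Finset.mem_filter.mp hv1).2
      have a2 := (Finset.mem_filter.mp hv2).2
      linarith
    have hcard := Finset.card_le_card (Finset.union_subset
      (Finset.filter_subset (fun v => f x - (f x - f y) / 4 ≤ f v) H)
      (Finset.filter_subset (fun v => - f y - (f x - f y) / 4 ≤ - f v) H))
    rw [Finset.card_union_of_disjoint hdisj] at hcard
    omega
  rcases lt_trichotomy (f y) (f x) with h | h | h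
  · rw [abs_of_pos (by linarith)]
    exact main f x y hx hy h
  · rw [h, sub_self, abs_zero, Real.zero_rpow (by linarith), mul_zero]
    unfold energy
    exact Finset.sum_nonneg (fun u _ => Finset.sum_nonneg (fun v _ =>
      mul_nonneg (hc.nonneg u v) (Real.rpow_nonneg (abs_nonneg _) p)))
  · rw [abs_sub_comm, abs_of_pos (by linarith)]
    exact main f y x hy hx h

end Vale.Agent.P249.L
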