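import Vale.Agent.P249.L.Osc
import Vale.Agent.P249.L.CoreEx

/-! P249: the single scale bound. -/

namespace Vale.Agent.P249.L

variable {V K : Type*} [DecidableEq V]

/-- [C1] -/
theorem wgt_nonneg (K' : Finset K) (s : K → ℝ) (hs0 : ∀ k, 0 ≤ s k) (a b : K → V) (u v : V) :
    0 ≤ wgt K' s a b u v := by
  unfold wgt
  apply Finset.sum_nonneg
  intro k _
  split_ifs
  · exact hs0 k
  · exact le_refl _

/-- [C1] -/
theorem wgt_symm (K' : Finset K) (s : K → ℝ) (a b : K → V) (u v : V) :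
    wgt K' s a b u v = wgt K' s a b v u := by
  unfold wgt
  refine Finset.sum_congr rfl (fun k _ => ?_)
  exact if_congr (or_comm) rfl rfl

/-- [C2] exchange the sums; for fixed `k` the ordered pairs `(u, v)` in `A x A` with a nonzero term are
`(a k, b k)` and `(b k, a k)` (distinct since `a k ≠ b k`), present iff `a k ∈ A` and `b k ∈ A`. -/
theorem sum_wgt (K' : Finset K) (s : K → ℝ) (a b : K → V) (hab : ∀ k ∈ K', a k ≠ b k)
    (A : Finset V) (g : V → V → ℝ) (hg : ∀ u v, g u v = g v u) :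
    ∑ u ∈ A, ∑ v ∈ A, wgt K' s a b u v * g u v =
      2 * ∑ k ∈ K'.filter (fun k => a k ∈ A ∧ b k ∈ A), s k * g (a k) (b k) := by
  classical
  have key : ∀ (c e : V) (t : ℝ), ∑ u ∈ A, ∑ v ∈ A, (if c = u ∧ e = v then t * g u v else 0) =
      if c ∈ A ∧ e ∈ A then t * g c e else 0 := by
    intro c e t
    have h1 : ∀ u ∈ A, ∑ v ∈ A, (if c = u ∧ e = v then t * g u v else 0) =
        if c = u then (if e ∈ A then t * g u e else 0) else 0 := by
      intro u _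
      by_cases hcu : c = u
      · simp [hcu]
      · simp [hcu]
    rw [Finset.sum_congr rfl h1, Finset.sum_ite_eq]
    by_cases h1 : c ∈ A <;> by_cases h2 : e ∈ A <;> simp [h1, h2]
  have step : ∀ k ∈ K', ∑ u ∈ A, ∑ v ∈ A,
      (if (a k = u ∧ b k = v) ∨ (a k = v ∧ b k = u) then s k else 0) * g u v =
      if a k ∈ A ∧ b k ∈ A then 2 * (s k * g (a k) (b k)) else 0 := by
    intro k hk
    have hne := hab k hk
    have h1 : ∀ u ∈ A, ∀ v ∈ A,
        (if (a k = u ∧ b k = v) ∨ (a k = v ∧ b k = u) then s k else 0) * g u v =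
        (if a k = u ∧ b k = v then s k * g u v else 0) +
        (if b k = u ∧ a k = v then s k * g u v else 0) := by
      intro u _ v _
      by_cases hP : a k = u ∧ b k = v
      · have hQ : ¬ (b k = u ∧ a k = v) := by
          rintro ⟨h3, h4⟩
          exact hne (hP.1.trans h3.symm)
        rw [if_pos (Or.inl hP), if_pos hP, if_neg hQ, add_zero]
      · by_cases hQ : b k = u ∧ a k = v
        · have hQ' : a k = v ∧ b k = u := ⟨hQ.2, hQ.1⟩
          rw [if_pos (Or.inr hQ'), if_neg hP, if_pos hQ, zero_add]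
        · have hQ' : ¬ (a k = v ∧ b k = u) := fun h => hQ ⟨h.2, h.1⟩
          rw [if_neg (not_or.mpr ⟨hP, hQ'⟩), if_neg hP, if_neg hQ, zero_mul, add_zero]
    rw [Finset.sum_congr rfl (fun u hu => Finset.sum_congr rfl (h1 u hu))]
    simp only [Finset.sum_add_distrib]
    rw [key, key, hg (b k) (a k)]
    by_cases h1 : a k ∈ A <;> by_cases h2 : b k ∈ A <;> simp [h1, h2]
    ring
  calc ∑ u ∈ A, ∑ v ∈ A, wgt K' s a b u v * g u v
      = ∑ u ∈ A, ∑ v ∈ A, ∑ k ∈ K',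
          (if (a k = u ∧ b k = v) ∨ (a k = v ∧ b k = u) then s k else 0) * g u v := by
        refine Finset.sum_congr rfl (fun u _ => Finset.sum_congr rfl (fun v _ => ?_))
        rw [wgt, Finset.sum_mul]
    _ = ∑ k ∈ K', ∑ u ∈ A, ∑ v ∈ A,
          (if (a k = u ∧ b k = v) ∨ (a k = v ∧ b k = u) then s k else 0) * g u v := by
        rw [Finset.sum_comm' (s := K') (t := fun _ => A) (t' := A) (s' := fun _ => K')
          (by intro x y; tauto)]
        refine Finset.sum_congr rfl (fun u _ => ?_)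
        rw [Finset.sum_comm]
    _ = ∑ k ∈ K', if a k ∈ A ∧ b k ∈ A then 2 * (s k * g (a k) (b k)) else 0 :=
        Finset.sum_congr rfl step
    _ = 2 * ∑ k ∈ K'.filter (fun k => a k ∈ A ∧ b k ∈ A), s k * g (a k) (b k) := by
        rw [Finset.sum_filter, Finset.mul_sum]
        refine Finset.sum_congr rfl (fun k _ => ?_)
        split_ifs <;> simp

/-- [C3] (`sum_wgt` with `g = 1`) -/
theorem EE_wgt (K' : Finset K) (s : K → ℝ) (a b : K → V) (hab : ∀ k ∈ K', a k ≠ b k)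
    (A : Finset V) :
    EE (wgt K' s a b) A = 2 * ∑ k ∈ K'.filter (fun k => a k ∈ A ∧ b k ∈ A), s k := by
  have h := sum_wgt K' s a b hab A (fun _ _ => 1) (fun _ _ => rfl)
  simp only [mul_one] at h
  exact h

/-- [C3] (`sum_wgt` with `g u v = |f u - f v|^p`) -/
theorem energy_wgt (K' : Finset K) (s : K → ℝ) (a b : K → V) (hab : ∀ k ∈ K', a k ≠ b k)
    (p : ℝ) (A : Finset V) (f : V → ℝ) :
    energy (wgt K' s a b) p A f =
      2 * ∑ k ∈ K'.filter (fun k => a k ∈ A ∧ b k ∈ A), s k * |f (a k) - f (b k)| ^ p :=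
  sum_wgt K' s a b hab A (fun u v => |f u - f v| ^ p) (fun u v => by rw [abs_sub_comm])

/-- [C4] facts on `dimP`. -/
theorem dimP_ge (p : ℝ) : 2 * p + 1 ≤ (dimP p : ℝ) := by
  unfold dimP
  exact Nat.le_ceil _

theorem dimP_three (p : ℝ) (hp : 1 ≤ p) : 3 ≤ dimP p := by
  have h := dimP_ge p
  have h3 : (3 : ℝ) ≤ (dimP p : ℝ) := by linarith
  exact_mod_cast h3

/-- the constant of the single scale bound -/
noncomputable def C1 (p : ℝ) : ℝ := (10 / 3) ^ p / cG p (dimP p) (1 / (4 * (dimP p : ℝ)))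

theorem C1_pos (p : ℝ) (hp : 1 ≤ p) : 0 < C1 p := by
  have h3 := dimP_three p hp
  have hD : (0 : ℝ) < (dimP p : ℝ) := by
    have : 0 < dimP p := by omega
    exact_mod_cast this
  unfold C1
  apply div_pos (Real.rpow_pos_of_pos (by norm_num) p)
  unfold cG aG
  positivity

/-- [C5] THE SINGLE SCALE BOUND.  `w = wgt K' s a b`, `D = dimP p`, `γ = 1 - 1/D`, `κ = (1-γ)/4 = 1/(4D)`,
`c = cG p D κ`.  If `∑ k ∈ K', s k = 0` trivial.  Otherwise `EE w W = 2 ∑ k ∈ K', s k > 0` (`EE_wgt`, all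
endpoints in `W`); `exists_core` gives `H ⊆ W`, `δ`.  Put `KH = K'.filter (a k ∈ H ∧ b k ∈ H)`, so
`EE w H = 2 ∑ k ∈ KH, s k > 0`.
Upper bound: `∑ k' : K, energy w p H (φ k') = 2 ∑ k ∈ KH, s k ∑ k', |φ k' (a k) - φ k' (b k)|^p
  ≤ 2 ∑ k ∈ KH, s k (d (a k) (b k))^p ≤ (2ℓ)^p EE w H`  (`energy_wgt`, `Finset.sum_comm`, `hload`, `hlen`).
Lower bound: `∑ k' : K, energy w p H (φ k') ≥ ∑ k ∈ KH, energy w p H (φ k) ≥ ∑ k ∈ KH, c δ |φ k (a k) - φ k (b k)|^p
  ≥ c δ (3/5)^p ℓ^p ∑ k ∈ KH, s k = c δ (3/5)^p ℓ^p EE w H / 2`  (`energy_ge`, `hsteep`, `hlen`; energies are `≥ 0`).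
Hence `δ ≤ 2 (10/3)^p / c` and `∑ k ∈ K', s k = EE w W / 2 ≤ δ |W| / 2 ≤ C1 p |W|`. -/
theorem single_scale [Fintype K] (p : ℝ) (hp : 1 ≤ p) (d : V → V → ℝ) (φ : K → V → ℝ)
    (hload : ∀ u v, ∑ k, |φ k u - φ k v| ^ p ≤ d u v ^ p)
    (s : K → ℝ) (hs0 : ∀ k, 0 ≤ s k) (K' : Finset K) (a b : K → V) (W : Finset V)
    (ℓ : ℝ) (hℓ : 0 < ℓ) (haW : ∀ k ∈ K', a k ∈ W) (hbW : ∀ k ∈ K', b k ∈ W)
    (hab : ∀ k ∈ K', a k ≠ b k)
    (hlen : ∀ k ∈ K', ℓ ≤ d (a k) (b k) ∧ d (a k) (b k) ≤ 2 * ℓ)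
    (hsteep : ∀ k ∈ K',
      (3 / 5 : ℝ) ^ p * s k * d (a k) (b k) ^ p ≤ |φ k (a k) - φ k (b k)| ^ p) :
    ∑ k ∈ K', s k ≤ C1 p * W.card := by
  classical
  have hp0 : 0 < p := by linarith
  have hC1 := C1_pos p hp
  set w := wgt K' s a b with hw
  set D := dimP p with hD
  have hD3 : 3 ≤ D := dimP_three p hp
  have hDpos : (0 : ℝ) < D := by exact_mod_cast (by omega : 0 < D)
  set γ : ℝ := 1 - 1 / (D : ℝ) with hγ
  set κ : ℝ := 1 / (4 * (D : ℝ)) with hκ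
  have hκ0 : 0 < κ := by positivity
  have hD1 : (1 : ℝ) ≤ D := by exact_mod_cast (by omega : 1 ≤ D)
  have hκ1 : κ ≤ 1 := by
    rw [hκ, div_le_one (by positivity)]; linarith
  have hγ0 : 0 < γ := by
    have : 1 / (D : ℝ) < 1 := by
      rw [div_lt_one hDpos]; exact_mod_cast (by omega : 1 < D)
    rw [hγ]; linarith
  have hγ1 : γ < 1 := by
    have : 0 < 1 / (D : ℝ) := by positivity
    rw [hγ]; linarith
  have hκγ : (1 - γ) / 4 = κ := by
    rw [hγ, hκ]; field_simp; ring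
  set c := cG p D κ with hc
  have hc0 : 0 < c := cG_pos p D (by omega) κ hκ0
  have hsum0 : 0 ≤ ∑ k ∈ K', s k := Finset.sum_nonneg (fun k _ => hs0 k)
  rcases hsum0.lt_or_eq with hpos | hzero
  swap
  · rw [← hzero]; positivity
  have hfW : K'.filter (fun k => a k ∈ W ∧ b k ∈ W) = K' := by
    apply Finset.filter_true_of_mem
    intro k hk
    exact ⟨haW k hk, hbW k hk⟩
  have hEW : EE w W = 2 * ∑ k ∈ K', s k := by
    rw [hw, EE_wgt K' s a b hab W, hfW]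
  obtain ⟨H, δ, hHW, hWδ, hEH, hcore⟩ := exists_core w (wgt_nonneg K' s hs0 a b)
    (wgt_symm K' s a b) γ hγ0 hγ1 W (by rw [hEW]; linarith)
  rw [hκγ] at hcore
  have hδ := hcore.pos
  set KH := K'.filter (fun k => a k ∈ H ∧ b k ∈ H) with hKH
  have hKHsub : ∀ k ∈ KH, k ∈ K' ∧ a k ∈ H ∧ b k ∈ H := by
    intro k hk
    rw [hKH, Finset.mem_filter] at hk
    exact hk
  have hEH2 : EE w H = 2 * ∑ k ∈ KH, s k := by
    rw [hw, EE_wgt K' s a b hab H]
  have hen0 : ∀ k', 0 ≤ energy w p H (φ k') := by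
    intro k'
    unfold energy
    exact Finset.sum_nonneg (fun u _ => Finset.sum_nonneg (fun v _ =>
      mul_nonneg (wgt_nonneg K' s hs0 a b u v) (Real.rpow_nonneg (abs_nonneg _) _)))
  -- upper bound
  have hup : ∑ k' : K, energy w p H (φ k') ≤ (2 * ℓ) ^ p * EE w H := by
    have e1 : ∑ k' : K, energy w p H (φ k') =
        2 * ∑ k ∈ KH, s k * ∑ k' : K, |φ k' (a k) - φ k' (b k)| ^ p := by
      have : ∀ k' : K, energy w p H (φ k') =
          2 * ∑ k ∈ KH, s k * |φ k' (a k) - φ k' (b k)| ^ p := by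
        intro k'
        rw [hw, energy_wgt K' s a b hab p H (φ k')]
      rw [Finset.sum_congr rfl (fun k' _ => this k'), ← Finset.mul_sum, Finset.sum_comm]
      congr 1
      apply Finset.sum_congr rfl
      intro k _
      rw [Finset.mul_sum]
    rw [e1, hEH2]
    have e2 : ∑ k ∈ KH, s k * ∑ k' : K, |φ k' (a k) - φ k' (b k)| ^ p ≤
        ∑ k ∈ KH, s k * (2 * ℓ) ^ p := by
      apply Finset.sum_le_sum
      intro k hk
      apply mul_le_mul_of_nonneg_left _ (hs0 k)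
      refine (hload (a k) (b k)).trans ?_
      have hl := hlen k (hKHsub k hk).1
      exact Real.rpow_le_rpow (by linarith) hl.2 hp0.le
    rw [← Finset.sum_mul] at e2
    nlinarith
  -- lower bound
  have hlow : c * δ * (3 / 5 : ℝ) ^ p * ℓ ^ p * ∑ k ∈ KH, s k ≤ ∑ k' : K, energy w p H (φ k') := by
    have e1 : ∑ k ∈ KH, energy w p H (φ k) ≤ ∑ k' : K, energy w p H (φ k') :=
      Finset.sum_le_sum_of_subset_of_nonneg (Finset.subset_univ _) (fun k _ _ => hen0 k)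
    refine le_trans ?_ e1
    rw [Finset.mul_sum]
    apply Finset.sum_le_sum
    intro k hk
    obtain ⟨hk1, hk2, hk3⟩ := hKHsub k hk
    have e2 := energy_ge p hp D (dimP_ge p) κ hκ0 hκ1 w H δ hcore (φ k) (a k) (b k) hk2 hk3
    refine le_trans ?_ e2
    have e3 := hsteep k hk1
    have e4 : ℓ ^ p ≤ d (a k) (b k) ^ p := Real.rpow_le_rpow hℓ.le (hlen k hk1).1 hp0.le
    have e5 : (3 / 5 : ℝ) ^ p * s k * ℓ ^ p ≤ |φ k (a k) - φ k (b k)| ^ p := by
      refine le_trans ?_ e3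
      apply mul_le_mul_of_nonneg_left e4
      exact mul_nonneg (by positivity) (hs0 k)
    calc c * δ * (3 / 5 : ℝ) ^ p * ℓ ^ p * s k = c * δ * ((3 / 5 : ℝ) ^ p * s k * ℓ ^ p) := by ring
      _ ≤ c * δ * |φ k (a k) - φ k (b k)| ^ p := by
        apply mul_le_mul_of_nonneg_left e5 (by positivity)
  have hSH : 0 < ∑ k ∈ KH, s k := by
    rw [hEH2] at hEH; linarith
  -- delta bound
  have hδle : δ ≤ 2 * C1 p := by
    have e1 : c * δ * (3 / 5 : ℝ) ^ p * ℓ ^ p * ∑ k ∈ KH, s k ≤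
        (2 * ℓ) ^ p * (2 * ∑ k ∈ KH, s k) := by
      rw [← hEH2]; exact hlow.trans hup
    have e2 : c * δ * (3 / 5 : ℝ) ^ p * ℓ ^ p ≤ (2 * ℓ) ^ p * 2 := by
      have : c * δ * (3 / 5 : ℝ) ^ p * ℓ ^ p * ∑ k ∈ KH, s k ≤
          ((2 * ℓ) ^ p * 2) * ∑ k ∈ KH, s k := by linarith
      exact le_of_mul_le_mul_right this hSH
    rw [Real.mul_rpow (by norm_num) hℓ.le] at e2
    have hℓp : 0 < ℓ ^ p := Real.rpow_pos_of_pos hℓ p
    have e3 : c * δ * (3 / 5 : ℝ) ^ p ≤ (2 : ℝ) ^ p * 2 := by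
      have : c * δ * (3 / 5 : ℝ) ^ p * ℓ ^ p ≤ ((2 : ℝ) ^ p * 2) * ℓ ^ p := by linarith
      exact le_of_mul_le_mul_right this hℓp
    have h35 : 0 < (3 / 5 : ℝ) ^ p := by positivity
    have e4 : (10 / 3 : ℝ) ^ p = (2 : ℝ) ^ p / (3 / 5 : ℝ) ^ p := by
      rw [← Real.div_rpow (by norm_num) (by norm_num)]
      norm_num
    have e5 : C1 p = (2 : ℝ) ^ p / (3 / 5 : ℝ) ^ p / c := by
      unfold C1
      rw [e4]
    rw [e5]
    rw [div_div, mul_div_assoc', le_div_iff₀ (by positivity)]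
    nlinarith
  have hWc : (0 : ℝ) ≤ W.card := Nat.cast_nonneg _
  have : 2 * ∑ k ∈ K', s k ≤ 2 * C1 p * W.card := by
    rw [← hEW]
    exact hWδ.trans (mul_le_mul_of_nonneg_right hδle hWc)
  linarith

end Vale.Agent.P249.L
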